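import Mathlib

namespace Vale.Agent.N007X

open FractionalIdeal

theorem cop_finite {O : Type} [CommRing O] [IsDomain O] [Module.Finite ℤ O] (J : Ideal O)
    (hJ : J ≠ ⊥) : {m : Ideal O | J ≤ m}.Finite := by
  obtain ⟨t, ht, ht0⟩ := Submodule.exists_mem_ne_zero_of_ne_bot hJ
  obtain ⟨c, hc, w, hw⟩ := (Algebra.IsAlgebraic.isAlgebraic (R := ℤ) t).exists_nonzero_dvd
    (mem_nonZeroDivisors_of_ne_zero ht0)
  have hfin : Finite (O ⧸ J) := by
    refine Module.finite_of_fg_torsion _ ?_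
    intro x
    obtain ⟨y, rfl⟩ := Ideal.Quotient.mk_surjective x
    refine ⟨⟨c, mem_nonZeroDivisors_of_ne_zero hc⟩, ?_⟩
    show c • Ideal.Quotient.mk J y = 0
    rw [← map_zsmul, Ideal.Quotient.eq_zero_iff_mem, Algebra.smul_def, hw]
    exact J.mul_mem_right _ (J.mul_mem_right _ ht)
  refine Set.Finite.of_finite_image (f := fun m : Ideal O =>
    ((m.map (Ideal.Quotient.mk J) : Ideal (O ⧸ J)) : Set (O ⧸ J))) (Set.toFinite _) ?_
  intro m hm m' hm' h
  have h1 : m.map (Ideal.Quotient.mk J) = m'.map (Ideal.Quotient.mk J) := SetLike.coe_injective h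
  have h2 := congrArg (Ideal.comap (Ideal.Quotient.mk J)) h1
  rwa [Ideal.comap_map_mk hm, Ideal.comap_map_mk hm'] at h2

theorem cop_elts {O K : Type} [CommRing O] [IsDomain O] [Module.Finite ℤ O] [Field K]
    [Algebra O K] [IsFractionRing O K] (I L : (FractionalIdeal (nonZeroDivisors O) K)ˣ) :
    ∃ x ∈ (I⁻¹).1, ∃ y ∈ I.1, ∃ a ∈ (L⁻¹).1, ∃ l ∈ L.1, x * y + a * l = 1 := by
  classical
  have hinj : Function.Injective (algebraMap O K) := IsFractionRing.injective O K
  have hmul : ∀ (I : (FractionalIdeal (nonZeroDivisors O) K)ˣ), ∀ x ∈ (I⁻¹).1, ∀ y ∈ I.1,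
      ∃ s : O, algebraMap O K s = x * y := by
    intro I x hx y hy
    have h := mul_mem_mul hx hy
    rw [Units.inv_mul] at h
    exact (mem_one_iff _).mp h
  have hne : ∀ (I : (FractionalIdeal (nonZeroDivisors O) K)ˣ), ∃ x ∈ I.1, x ≠ 0 := by
    intro I
    by_contra h
    push Not at h
    exact I.ne_zero (FractionalIdeal.eq_zero_iff.mpr h)
  obtain ⟨a, ha, ha0⟩ := hne L⁻¹
  obtain ⟨l0, hl0, hl00⟩ := hne L
  let id : ∀ (I : (FractionalIdeal (nonZeroDivisors O) K)ˣ) (x : K), Ideal O := fun I x =>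
    ((I.1 : Submodule O K).map (LinearMap.mulLeft O x)).comap (Algebra.linearMap O K)
  have hid : ∀ I x t, t ∈ id I x ↔ ∃ y ∈ I.1, x * y = algebraMap O K t := fun I x t => Iff.rfl
  have hJ : id L a ≠ ⊥ := by
    obtain ⟨s, hs⟩ := hmul L a ha l0 hl0
    intro h
    have h1 : s ∈ id L a := (hid _ _ _).mpr ⟨l0, hl0, hs.symm⟩
    rw [h, Ideal.mem_bot] at h1
    rw [h1, map_zero] at hs
    exact mul_ne_zero ha0 hl00 hs.symm
  have hF : {m : Ideal O | m.IsMaximal ∧ id L a ≤ m}.Finite :=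
    (cop_finite _ hJ).subset fun m hm => hm.2
  set F := hF.toFinset with hFdef
  have hmemF : ∀ m, m ∈ F ↔ m.IsMaximal ∧ id L a ≤ m := fun m => hF.mem_toFinset
  have h1 : ∀ m : Ideal O, ∃ x ∈ (I⁻¹).1, ∃ y ∈ I.1, m ∈ F →
      ∀ t, algebraMap O K t = x * y → t ∉ m := by
    intro m
    by_contra hcon
    push Not at hcon
    have hm : m ∈ F := (hcon 0 (zero_mem _) 0 (zero_mem _)).1
    have hone : (1 : K) ∈ (I⁻¹).1 * I.1 := by
      rw [Units.inv_mul]
      exact one_mem_one _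
    have key : ∃ t ∈ m, algebraMap O K t = 1 := by
      refine FractionalIdeal.mul_induction_on (C := fun z => ∃ t ∈ m, algebraMap O K t = z)
        hone ?_ ?_
      · intro x hx y hy
        obtain ⟨-, t, h1, h2⟩ := hcon x hx y hy
        exact ⟨t, h2, h1⟩
      · rintro _ _ ⟨t, ht, rfl⟩ ⟨u, hu, rfl⟩
        exact ⟨t + u, m.add_mem ht hu, map_add _ _ _⟩
    obtain ⟨t, ht, ht1⟩ := key
    have : t = 1 := hinj (by rw [ht1, map_one])
    exact ((hmemF m).mp hm).1.ne_top ((Ideal.eq_top_iff_one _).mpr (this ▸ ht))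
  choose x hx y hy hxy using h1
  have h2 : ∀ m m' : Ideal O, ∃ e : O, m ∈ F → m' ∈ F → m' ≠ m → e ∈ m' ∧ e ∉ m := by
    intro m m'
    by_contra hcon
    push Not at hcon
    obtain ⟨hm, hm', hne, -⟩ := hcon 0
    refine hne (((hmemF m').mp hm').1.eq_of_le ((hmemF m).mp hm).1.ne_top fun e he => ?_)
    exact (hcon e).2.2.2 he
  choose e he using h2
  let E : Ideal O → O := fun m => ∏ m' ∈ F.erase m, e m m'
  have hE1 : ∀ m ∈ F, E m ∉ m := by
    intro m hm h
    have hp := ((hmemF m).mp hm).1.isPrime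
    obtain ⟨m', hm', h⟩ := Ideal.IsPrime.prod_mem_iff.mp h
    exact (he m m' hm (Finset.mem_of_mem_erase hm') (Finset.ne_of_mem_erase hm')).2 h
  have hE2 : ∀ m ∈ F, ∀ m' ∈ F, m' ≠ m → E m ∈ m' := by
    intro m hm m' hm' hne
    exact Ideal.mem_of_dvd _ (Finset.dvd_prod_of_mem _ (Finset.mem_erase.mpr ⟨hne, hm'⟩))
      (he m m' hm hm' hne).1
  let X : K := ∑ m ∈ F, E m • x m
  have hX : X ∈ (I⁻¹).1 :=
    Submodule.sum_mem ((I⁻¹).1 : Submodule O K) fun m _ => Submodule.smul_mem _ _ (hx m)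
  have htop : id I X ⊔ id L a = ⊤ := by
    by_contra hne
    obtain ⟨m, hm, hle⟩ := Ideal.exists_le_maximal _ hne
    have hmF : m ∈ F := (hmemF m).mpr ⟨hm, le_sup_right.trans hle⟩
    choose s hs using fun m' => hmul I (x m') (hx m') (y m) (hy m)
    have h3 : ∑ m' ∈ F, E m' * s m' ∈ m := by
      refine hle (Ideal.mem_sup_left ((hid _ _ _).mpr ⟨y m, hy m, ?_⟩))
      simp only [X, Finset.sum_mul, map_sum, map_mul, hs, Algebra.smul_def, mul_assoc]
    rw [← Finset.add_sum_erase _ _ hmF] at h3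
    have h4 : ∑ m' ∈ F.erase m, E m' * s m' ∈ m :=
      Ideal.sum_mem _ fun m' hm' => m.mul_mem_right _
        (hE2 m' (Finset.mem_of_mem_erase hm') m hmF (Finset.ne_of_mem_erase hm').symm)
    have h5 : E m * s m ∈ m := (Ideal.add_mem_iff_left _ h4).mp h3
    rcases hm.isPrime.mem_or_mem h5 with h | h
    · exact hE1 m hmF h
    · exact hxy m hmF _ (hs m) h
  obtain ⟨t, ht, u, hu, htu⟩ := Submodule.mem_sup.mp ((Ideal.eq_top_iff_one _).mp htop)
  obtain ⟨y', hy', h6⟩ := (hid _ _ _).mp ht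
  obtain ⟨l, hl, h7⟩ := (hid _ _ _).mp hu
  exact ⟨X, hX, y', hy', a, ha, l, hl, by rw [h6, h7, ← map_add, htu, map_one]⟩

theorem cop_sum {O K : Type} [CommRing O] [IsDomain O] [Module.Finite ℤ O] [Field K]
    [Algebra O K] [IsFractionRing O K] (I L : (FractionalIdeal (nonZeroDivisors O) K)ˣ) :
    Nonempty ((((I * L : (FractionalIdeal (nonZeroDivisors O) K)ˣ).1 : Submodule O K) × O) ≃ₗ[O]
      ((I.1 : Submodule O K) × (L.1 : Submodule O K))) := by
  obtain ⟨x, hx, y, hy, a, ha, l, hl, h⟩ := cop_elts I L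
  have hinj : Function.Injective (algebraMap O K) := IsFractionRing.injective O K
  have m1 : ∀ w ∈ (I * L).1, a * w ∈ I.1 := by
    intro w hw
    have := mul_mem_mul ha hw
    rwa [← Units.val_mul, mul_comm I L, inv_mul_cancel_left] at this
  have m2 : ∀ w ∈ (I * L).1, x * w ∈ L.1 := by
    intro w hw
    have := mul_mem_mul hx hw
    rwa [← Units.val_mul, inv_mul_cancel_left] at this
  let f : (((I * L).1 : Submodule O K) × O) →ₗ[O]
      ((I.1 : Submodule O K) × (L.1 : Submodule O K)) :=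
    { toFun := fun p =>
        (⟨a * p.1.1 + p.2 • y, add_mem (m1 _ p.1.2) (Submodule.smul_mem _ _ hy)⟩,
          ⟨p.2 • l - x * p.1.1, sub_mem (Submodule.smul_mem _ _ hl) (m2 _ p.1.2)⟩)
      map_add' := fun p q => by
        ext <;> simp [add_smul, mul_add] <;> ring
      map_smul' := fun r p => by
        ext <;> simp [Algebra.smul_def] <;> ring }
  refine ⟨LinearEquiv.ofBijective f ⟨?_, ?_⟩⟩
  · rw [← LinearMap.ker_eq_bot, LinearMap.ker_eq_bot']
    rintro ⟨⟨w, hw⟩, t⟩ h0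
    have e1 : a * w + t • y = 0 := congrArg (fun q => (q.1.1 : K)) h0
    have e2 : t • l - x * w = 0 := congrArg (fun q => (q.2.1 : K)) h0
    rw [Algebra.smul_def] at e1 e2
    have hw0 : w = 0 := by linear_combination l * e1 - y * e2 - w * h
    have ht0 : algebraMap O K t = 0 := by
      linear_combination x * e1 + a * e2 - algebraMap O K t * h
    have : t = 0 := hinj (by rw [ht0, map_zero])
    ext <;> simp [hw0, this]
  · rintro ⟨⟨u, hu⟩, ⟨v, hv⟩⟩
    have k1 : x * u ∈ (1 : FractionalIdeal (nonZeroDivisors O) K) := by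
      have := mul_mem_mul hx hu
      rwa [Units.inv_mul] at this
    have k2 : a * v ∈ (1 : FractionalIdeal (nonZeroDivisors O) K) := by
      have := mul_mem_mul ha hv
      rwa [Units.inv_mul] at this
    obtain ⟨s1, hs1⟩ := (mem_one_iff _).mp k1
    obtain ⟨s2, hs2⟩ := (mem_one_iff _).mp k2
    have k3 : u * l - y * v ∈ ((I * L).1 : Submodule O K) :=
      sub_mem (mul_mem_mul hu hl) (mul_mem_mul hy hv)
    refine ⟨(⟨u * l - y * v, k3⟩, s1 + s2), ?_⟩
    ext
    · show a * (u * l - y * v) + (s1 + s2) • y = u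
      rw [Algebra.smul_def, map_add, hs1, hs2]
      linear_combination u * h
    · show (s1 + s2) • l - x * (u * l - y * v) = v
      rw [Algebra.smul_def, map_add, hs1, hs2]
      linear_combination v * h

theorem ded_of {R : Type} [CommRing R] [IsDomain R] [Module.Finite ℤ R]
    (h : ∀ a b : R, b ≠ 0 → (∃ f : Polynomial ℤ, f.Monic ∧
      Polynomial.aeval (algebraMap R (FractionRing R) a / algebraMap R (FractionRing R) b) f = 0) →
      b ∣ a) : IsDedekindDomain R := by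
  refine (isDedekindDomain_iff R (FractionRing R)).mpr
    ⟨inferInstance, IsNoetherianRing.of_finite ℤ R, Ring.DimensionLEOne.of_isIntegral (R := ℤ) R,
      fun {x} hx => ?_⟩
  obtain ⟨a, b, hb, rfl⟩ := IsFractionRing.div_surjective (A := R) x
  have hb0 : b ≠ 0 := nonZeroDivisors.ne_zero hb
  have hz : IsIntegral ℤ (algebraMap R (FractionRing R) a / algebraMap R (FractionRing R) b) :=
    isIntegral_trans _ hx
  obtain ⟨f, hf, hf0⟩ := hz
  obtain ⟨c, rfl⟩ := h a b hb0 ⟨f, hf, hf0⟩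
  refine ⟨c, ?_⟩
  have : algebraMap R (FractionRing R) b ≠ 0 :=
    (map_ne_zero_iff _ (IsFractionRing.injective R _)).mpr hb0
  rw [map_mul, mul_div_cancel_left₀ _ this]

end Vale.Agent.N007X
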