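import Vale.Agent.N007X.Tube

/-! All the limits of packet measures, in the coset model. -/

open MeasureTheory Matrix Filter Topology NumberField
open scoped ENNReal CompactlySupported

namespace Vale.Agent.N007X

open Vale.Agent.P007 Vale.Agent.P007.Fib Vale.Agent.P007.R Vale.Agent.P007.Koopman
  Vale.Agent.P007.H11

variable {n : ℕ}

theorem packet_Yd (D : Datum n) {p : Fin n → ℝ} (hp : p ∈ RE D) : D.packetMeas (Yd p)ᶜ = 0 := by
  obtain ⟨a, ha, rfl⟩ := (mem_RE D).1 hp
  refine packetMeas_null _ (isClosed_Yd _).measurableSet ?_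
  rintro S ⟨x, hx, rfl⟩
  exact orb_subset_Yd D hx ⟨a, ha⟩

theorem re_countable (D : Datum n) : (RE D : Set (Fin n → ℝ)).Countable := by
  have : Countable D.K := Finsupp.Countable.of_moduleFinite (R := ℚ)
  refine (Set.countable_range (sE D)).mono fun p hp => ?_
  obtain ⟨a, -, rfl⟩ := (mem_RE D).1 hp
  exact ⟨_, rfl⟩

theorem sign_inv (D : Datum n) : SInv D.packetMeas := by
  rintro g ⟨w, hw⟩
  have h : F.PacketMeas (n := n) D.K D.O D.σ D.packetMeas :=
    (F.packetMeas_iff _).2 ⟨⟨D.real, D.deg, D.full⟩,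
      (T.pktMeas_iff ⟨D.real, D.deg, D.full⟩ _).2 rfl⟩
  exact F.packetMeas_sign h w g hw

theorem disc_le (D : Datum n) {p : Fin n → ℝ} (hp : p ∈ RE D) (hi : Function.Injective p) :
    √(D.disc : ℝ) ≤ |(vandermonde p).det| := by
  obtain ⟨A, hA, hlat⟩ := N.exists_mat_order D
  have h1 : |A.det| = √(D.disc : ℝ) := N.abs_det_order D hA hlat
  have hM : (vandermonde p)ᵀ.det ≠ 0 := by
    rw [det_transpose]
    exact det_vandermonde_ne_zero_iff.2 hi
  obtain ⟨P, hP⟩ := exists_int_mul (M := (vandermonde p)ᵀ) (N := A) fun i => by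
    rw [hlat]
    exact pow_mem hp i
  rw [← det_transpose (vandermonde p), ← h1]
  rw [hP, det_mul, cast_det] at hM ⊢
  have h3 : (1 : ℝ) ≤ |(P.det : ℝ)| := by
    exact_mod_cast Int.one_le_abs (Int.cast_ne_zero.1 (left_ne_zero_of_mul hM))
  rw [abs_mul]
  exact le_mul_of_one_le_left (abs_nonneg _) h3

theorem int_or_mult (D : Datum n) {p : Fin n → ℝ} (hp : p ∈ RE D)
    (hd : |(vandermonde p).det| < √(D.disc : ℝ)) : (∃ z : ℤ, p = fun _ => (z : ℝ)) ∨ IsMult p := by
  classical
  have hni : ¬ Function.Injective p := fun h => absurd (disc_le D hp h) (not_le.2 hd)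
  have := packetMeas_prob D
  obtain ⟨x, hx⟩ : (Yd p : Set (X n)).Nonempty := by
    refine nonempty_of_measure_ne_zero (μ := D.packetMeas) ?_
    rw [(prob_compl_eq_zero_iff (isClosed_Yd p).measurableSet).1 (packet_Yd D hp)]
    exact one_ne_zero
  obtain ⟨g, rfl⟩ := pt_surjective x
  obtain ⟨a, ha, rfl⟩ := (mem_RE D).1 hp
  have hint : IsIntegral ℤ a := Algebra.IsIntegral.isIntegral a
  have hroot : ∀ j, Polynomial.aeval (sE D (a : D.K) j) (minpoly ℤ a) = 0 := fun j =>
    (Polynomial.aeval_algHom_apply (((D.σ j).comp (algebraMap (𝓞 D.K) D.K)).toIntAlgHom) a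
      (minpoly ℤ a)).trans (by rw [minpoly.aeval, map_zero])
  by_cases h1 : (minpoly ℤ a).natDegree = 1
  · obtain ⟨z, rfl⟩ := minpoly.natDegree_eq_one_iff.1 h1
    exact .inl ⟨z, funext fun j => by simp [sE_apply]⟩
  have h2 := minpoly.natDegree_pos hint
  refine .inr ⟨minpoly ℤ a, minpoly.monic hint, minpoly.irreducible hint, by omega, ?_, hroot⟩
  obtain ⟨j, k, h3, h4⟩ := Function.not_injective_iff.1 hni
  have h5 := level_card (minpoly.monic hint) (minpoly.irreducible hint) hroot (pt_mem_Yd.1 hx) k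
  have h6 : 1 < (Finset.univ.filter fun l => sE D (a : D.K) l = sE D (a : D.K) k).card :=
    Finset.one_lt_card.2 ⟨j, by simp [h3], k, by simp, h4⟩
  nlinarith

/-- The elements of `ℝ^n` which lie in almost all the orders. -/
def limR (D : ℕ → Datum n) (l : Filter ℕ) : Subring (Fin n → ℝ) where
  carrier := {p | ∀ᶠ i in l, p ∈ RE (D i)}
  mul_mem' h1 h2 := (h1.and h2).mono fun _ h => mul_mem h.1 h.2
  one_mem' := Eventually.of_forall fun _ => one_mem _
  add_mem' h1 h2 := (h1.and h2).mono fun _ h => add_mem h.1 h.2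
  zero_mem' := Eventually.of_forall fun _ => zero_mem _
  neg_mem' h := h.mono fun _ h => neg_mem h

theorem limR_countable (D : ℕ → Datum n) (l : Filter ℕ) [l.NeBot] :
    (limR D l : Set (Fin n → ℝ)).Countable :=
  (Set.countable_iUnion fun i => re_countable (D i)).mono fun _ hp =>
    Set.mem_iUnion.2 (Eventually.exists hp)

/-- An element with the finest level sets. -/
theorem exists_gen (R : Subring (Fin n → ℝ)) :
    ∃ p ∈ R, ∀ q ∈ R, ∀ j k, p j = p k → q j = q k := by
  classical
  let s : (Fin n → ℝ) → Finset (Fin n × Fin n) := fun p => Finset.univ.filter fun a => p a.1 = p a.2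
  obtain ⟨p, hp, hmin⟩ := (wellFounded_lt.onFun (f := fun p => (s p).card)).has_min
    (R : Set (Fin n → ℝ)) ⟨0, zero_mem R⟩
  refine ⟨p, hp, fun q hq j k hjk => ?_⟩
  by_contra hne
  obtain ⟨t, ht⟩ := Infinite.exists_notMem_finset (Finset.univ.image fun a : Fin n × Fin n =>
    ⌊(p a.2 - p a.1) / (q a.1 - q a.2)⌋)
  refine hmin (p + t • q) (add_mem hp (zsmul_mem hq t)) (Finset.card_lt_card ⟨fun a ha => ?_, fun h => ?_⟩)
  · have h1 : p a.1 + t * q a.1 = p a.2 + t * q a.2 := by simpa [s] using ha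
    by_cases h2 : q a.1 = q a.2
    · rw [h2] at h1
      simpa [s] using h1
    · refine absurd (Finset.mem_image.2 ⟨a, Finset.mem_univ _, ?_⟩) ht
      rw [show (p a.2 - p a.1) / (q a.1 - q a.2) = t by
        rw [div_eq_iff (sub_ne_zero.2 h2)]; linarith, Int.floor_intCast]
  · have h1 : p j + t * q j = p k + t * q k := by
      simpa [s] using h (show (j, k) ∈ s p by simp [s, hjk])
    refine ht (Finset.mem_image.2 ⟨(j, k), Finset.mem_univ _, ?_⟩)
    rw [show (p k - p j) / (q j - q k) = t by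
      rw [div_eq_iff (sub_ne_zero.2 hne)]; linarith, Int.floor_intCast]

theorem comm_of_level {p q : Fin n → ℝ} (h : ∀ j k, p j = p k → q j = q k)
    {A : Matrix (Fin n) (Fin n) ℝ} (hA : A * diagonal p = diagonal p * A) :
    A * diagonal q = diagonal q * A := by
  ext j k
  have h1 := congrFun (congrFun hA j) k
  rw [mul_diagonal, diagonal_mul] at h1 ⊢
  by_cases h2 : p j = p k
  · rw [h j k h2, mul_comm]
  · have h3 : A j k = 0 := by
      by_contra h3
      exact h2 (mul_left_cancel₀ h3 (h1.symm ▸ mul_comm _ _))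
    simp [h3]

section lim

variable {D : ℕ → Datum n} {U : Ultrafilter ℕ} {ν : Measure (X n)} [IsProbabilityMeasure ν]

/-- `ν` is the limit of the packet measures along `l`. -/
def Lim (D : ℕ → Datum n) (l : Filter ℕ) (ν : Measure (X n)) : Prop :=
  ∀ f : C_c(X n, ℝ), Tendsto (fun i => ∫ x, f x ∂(D i).packetMeas) l (𝓝 (∫ x, f x ∂ν))

theorem Lim.full (h : Lim D U ν) {p : Fin n → ℝ} (hp : p ∈ limR D U) : ν (Yd p)ᶜ = 0 := by
  have h1 := open_le (fun i => packetMeas_prob (D i)) h (isClosed_Yd p).isOpen_compl (c := 0) le_rfl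
    (Eventually.mono hp fun i hi => by rw [packet_Yd _ hi]; exact zero_le)
  rw [ENNReal.ofReal_zero] at h1
  exact le_antisymm h1 zero_le

variable (hn : 3 ≤ n) (hd : Tendsto (fun i => (D i).disc) atTop atTop) (hU : (U : Filter ℕ) ≤ atTop)
include hn hd hU

theorem Lim.null (h : Lim D U ν) {p : Fin n → ℝ} (hm : IsMult p) (hp : p ∉ limR D U) :
    ν (Yd p) = 0 := by
  refine le_antisymm (ENNReal.le_of_forall_pos_le_add fun ε hε _ => ?_) zero_le
  obtain ⟨V, hV, hY, h1⟩ := tube hn D hd hm (NNReal.coe_pos.2 hε)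
  have h2 := open_le (fun i => packetMeas_prob (D i)) h hV ε.2
    (((h1.filter_mono hU).and (Ultrafilter.eventually_not.2 hp)).mono fun i hi => hi.1 hi.2)
  simpa using (measure_mono hY).trans h2

theorem Lim.props (h : Lim D U ν) : AInv ν ∧ Star ν := by
  obtain ⟨ν', h1, h2, h3, h4⟩ := S11.O3.exists_limit_fam hn (S11.keyStmt n hn) D hd U hU
  have e : ν = ν' := ext_cc fun f => tendsto_nhds_unique (h f) (h4 f)
  subst e
  exact ⟨h2, h3⟩

/-- The limits are invariant under the centralizer of the limit ring. -/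
theorem Lim.inv (h : Lim D U ν) {k : G n}
    (hk : ∀ p ∈ limR D U, k.1 * diagonal p = diagonal p * k.1) : ν.map (tr k) = ν := by
  obtain ⟨m, hm⟩ := exists_invProb' n (by omega)
  obtain ⟨h1, h2⟩ := h.props hn hd hU
  obtain ⟨κ, hκ, hν⟩ := decomposition_sg_gen hn (by omega) ν h1 h2
    (fun g hg => map_of_ultra ν h fun i => sign_inv (D i) g hg) hm
  have h3 : ∀ q, (κ q).map (tr k) = κ q := fun q => by
    by_cases hq : q.1 ∈ limR D U
    · exact inv_centralizer (hκ q).1 (hκ q).2 (hk _ hq)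
    have hle : κ q ≤ ν := by
      conv_rhs => rw [hν]
      exact (Measure.le_sum κ q).trans (Measure.le_add_left le_rfl)
    have h4 : κ q = 0 := by
      rw [← Measure.measure_univ_eq_zero, ← Set.union_compl_self (Yd q.1)]
      exact measure_union_null (le_antisymm ((hle _).trans (h.null hn hd hU q.2 hq).le) zero_le)
        (hκ q).1.2.1
    rw [h4, Measure.map_zero]
  have h5 : m.map (tr k) = m := hm.2 k
  conv_lhs => rw [hν]
  rw [Measure.map_add _ _ (measurable_tr k), Measure.map_smul, h5,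
    Measure.map_sum (measurable_tr k).aemeasurable]
  simp only [h3]
  exact hν.symm

omit hn hd hU in
theorem Lim.mass (h : Lim D U ν) {p : Fin n → ℝ} (hp : p ∈ limR D U) {x : X n} (hx : x ∈ Yd p) :
    Tendsto (fun i => (D i).packetMeas (ZO p x)) U (𝓝 (ν (ZO p x))) := by
  classical
  have : TopologicalSpace.MetrizableSpace (X n) :=
    TopologicalSpace.metrizableSpace_of_t3_secondCountable _
  obtain ⟨V₁, V₂, h1, h2, h3, h4, h5⟩ := normal_separation (isClosed_ZO hx) (isClosed_diff_ZO hx)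
    Set.disjoint_sdiff_right
  let μ : ℕ → Measure (X n) := fun i => if p ∈ RE (D i) then (D i).packetMeas else ν
  have e : ∀ᶠ i in (U : Filter ℕ), (D i).packetMeas = μ i :=
    Eventually.mono hp fun i hi => (if_pos hi).symm
  have hμ : ∀ i, IsProbabilityMeasure (μ i) := fun i => by
    have := packetMeas_prob (D i)
    by_cases hi : p ∈ RE (D i) <;> simp only [μ, hi, if_true, if_false] <;> infer_instance
  have h6 := mass_lim (U := U) hμ (ν := ν) (fun f => (h f).congr' (e.mono fun i hi => by rw [hi]))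
    (isClosed_ZO hx).measurableSet h1 h2 h3 h4 h5 (fun i => by
      by_cases hi : p ∈ RE (D i) <;> simp only [μ, hi, if_true, if_false]
      exacts [packet_Yd _ hi, h.full hp]) (h.full hp)
  rw [ENNReal.tendsto_toReal_iff (fun i => measure_ne_top _ _) (measure_ne_top _ _)] at h6
  exact h6.congr' (e.mono fun i hi => by rw [← hi])

end lim

end Vale.Agent.N007X
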