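import Vale.Agent.N007.Defs

/-! Lattices with a ring of multiplications, and the orbits of its centralizer. -/

open MeasureTheory Matrix Filter

namespace Vale.Agent.N007X

open Vale.Agent.N007

variable {n : ℕ}

/-- The ring `σ(O) ⊆ ℝ^n`. -/
def mult (T : Data n) : Set (Fin n → ℝ) := {p | ∃ a ∈ T.O, p = fun j => T.σ j a}

/-- The lattices `Λ` with `Λ diag(p) ⊆ Λ` for all `p ∈ R`. -/
def Stab (R : Set (Fin n → ℝ)) : Set (X n) := {Λ | ∀ p ∈ R, ∀ v ∈ Λ.1, v * p ∈ Λ.1}

/-- The elements of `SL_n(ℝ)` which commute with all `diag(p)`, `p ∈ R`. -/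
def Cen (R : Set (Fin n → ℝ)) : Set (SpecialLinearGroup (Fin n) ℝ) :=
  {h | ∀ p ∈ R, h.1 * diagonal p = diagonal p * h.1}

/-- The action of `Cen R` on `X_n`. -/
noncomputable def act (R : Set (Fin n → ℝ)) (h : Cen R) (Λ : X n) : X n := Λ.mul h

/-- The orbits `Λ Cen(R)`, `Λ ∈ Stab R`. -/
def orbs (R : Set (Fin n → ℝ)) : Set (Set (X n)) := orbit (act R) '' Stab R

/-- `μ_i` is the packet measure of `T_i`, and `|Disc O_i| → ∞`. -/
structure Seq (T : ℕ → Data n) (μ : ℕ → Measure (X n)) : Prop where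
  avg : ∀ i, IsAverage (packet (T i).σ (T i).rep) (μ i)
  top : Tendsto (fun i => disc (T i).O) atTop atTop

end Vale.Agent.N007X
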