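import Vale.Agent.N007X.St

namespace Vale.Agent.N007X

variable {R : Type} [CommRing R] [IsDomain R] [Module.Finite ℤ R] [CharZero R]

omit [IsDomain R] [CharZero R] in
theorem flip_fin (X : Type) [AddCommGroup X] [Module R X] [Module.Finite R X] :
    Module.Finite ℤ X := Module.Finite.trans R X

theorem flip_free (X : Type) [AddCommGroup X] [Module R X] [Module.Finite R X]
    [Module.IsTorsionFree R X] : Module.Free ℤ X := by
  have := flip_fin (R := R) X
  have : Module.IsTorsionFree ℤ X := Module.IsTorsionFree.trans (R := R)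
  infer_instance

omit [IsDomain R] [Module.Finite ℤ R] [CharZero R] in
theorem flip_conj {X Y : Type} [AddCommGroup X] [Module R X] [AddCommGroup Y] [Module R Y]
    (e : X ≃ₗ[R] Y) (θ : X ≃ₗ[R] X) :
    LinearMap.det (((e.symm.trans θ).trans e).toLinearMap.restrictScalars ℤ) =
      LinearMap.det (θ.toLinearMap.restrictScalars ℤ) :=
  LinearMap.det_conj (θ.toLinearMap.restrictScalars ℤ) (e.restrictScalars ℤ)

theorem flip_prod {X Y : Type} [AddCommGroup X] [Module R X] [Module.Finite R X]
    [Module.IsTorsionFree R X] [AddCommGroup Y] [Module R Y] [Module.Finite R Y]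
    [Module.IsTorsionFree R Y] (α : X ≃ₗ[R] X) (β : Y ≃ₗ[R] Y) :
    LinearMap.det ((α.prodCongr β).toLinearMap.restrictScalars ℤ) =
      LinearMap.det (α.toLinearMap.restrictScalars ℤ) *
        LinearMap.det (β.toLinearMap.restrictScalars ℤ) := by
  have := flip_fin (R := R) X
  have := flip_fin (R := R) Y
  have := flip_free (R := R) X
  have := flip_free (R := R) Y
  exact LinearMap.det_prodMap (α.toLinearMap.restrictScalars ℤ) (β.toLinearMap.restrictScalars ℤ)

theorem flip_ideal [IsNoetherianRing R] (I : Ideal R) (hI : I ≠ ⊥) (u : R) :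
    LinearMap.det ((LinearMap.lsmul R I u).restrictScalars ℤ) = Algebra.norm ℤ u := by
  have := flip_fin (R := R) I
  have := flip_free (R := R) I
  have := flip_free (R := R) R
  have hr : Module.finrank ℤ I = Module.finrank ℤ R :=
    Ideal.finrank_eq_finrank (Module.Free.chooseBasis ℤ R) I hI
  let ε : I ≃ₗ[ℤ] R := LinearEquiv.ofFinrankEq I R hr
  let j : R →ₗ[ℤ] R := (I.subtype.restrictScalars ℤ) ∘ₗ ε.symm.toLinearMap
  have hj : LinearMap.det j ≠ 0 := by
    rw [Ne, LinearMap.det_eq_zero_iff_ker_ne_bot, not_not, LinearMap.ker_eq_bot]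
    exact Subtype.val_injective.comp ε.symm.injective
  have h1 : j ∘ₗ (ε.toLinearMap ∘ₗ ((LinearMap.lsmul R I u).restrictScalars ℤ) ∘ₗ
      ε.symm.toLinearMap) = (Algebra.lmul ℤ R u) ∘ₗ j := by
    ext x
    simp [j]
  have h2 := congrArg LinearMap.det h1
  rw [LinearMap.det_comp, LinearMap.det_conj, LinearMap.det_comp, mul_comm] at h2
  rw [Algebra.norm_apply]
  exact mul_right_cancel₀ hj h2

theorem det_flip {R M N : Type} [CommRing R] [IsDedekindDomain R] [Module.Finite ℤ R] [CharZero R]
    [AddCommGroup M] [Module R M] [Module.Finite R M] [Module.IsTorsionFree R M]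
    [AddCommGroup N] [Module R N] [Module.Finite R N] [Module.IsTorsionFree R N] [Nontrivial N]
    (θ : M ≃ₗ[R] M) (h : LinearMap.det (θ.toLinearMap.restrictScalars ℤ) = -1) :
    ∃ φ : N ≃ₗ[R] N, LinearMap.det (φ.toLinearMap.restrictScalars ℤ) = -1 := by
  have := st_proj (R := R) M
  have := flip_free (R := R) R
  obtain ⟨m, f, g, -, -, hfg⟩ := Module.Finite.exists_comp_eq_id_of_projective R M
  let e : (LinearMap.ker f × M) ≃ₗ[R] (Fin m → R) :=
    lequivProdOfRightSplitExact (LinearMap.ker f).injective_subtype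
      (Submodule.range_subtype _) hfg
  let Θ := (e.symm.trans ((LinearEquiv.refl R (LinearMap.ker f)).prodCongr θ)).trans e
  let u : Rˣ := LinearEquiv.det Θ
  have hu : Algebra.norm ℤ (u : R) = -1 := by
    have h1 : (u : R) = LinearMap.det Θ.toLinearMap := LinearEquiv.coe_det Θ
    rw [h1, ← LinearMap.det_restrictScalars, flip_conj, flip_prod, h]
    have : LinearMap.det ((LinearEquiv.refl R (LinearMap.ker f)).toLinearMap.restrictScalars ℤ)
        = 1 := LinearMap.det_id
    rw [this, one_mul]
  obtain ⟨I, N', hI, ⟨e'⟩⟩ := st_summand (R := R) (M := N)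
  let α : I ≃ₗ[R] I := DistribMulAction.toLinearEquiv R I u
  refine ⟨(e'.symm.symm.trans (α.prodCongr (LinearEquiv.refl R N'))).trans e'.symm, ?_⟩
  rw [flip_conj, flip_prod]
  have h2 : LinearMap.det ((LinearEquiv.refl R N').toLinearMap.restrictScalars ℤ) = 1 :=
    LinearMap.det_id
  have h3 : LinearMap.det (α.toLinearMap.restrictScalars ℤ) = Algebra.norm ℤ (u : R) :=
    flip_ideal I hI u
  rw [h2, h3, hu, mul_one]

end Vale.Agent.N007X
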