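import Vale.Agent.N007X.Pid
import Vale.Agent.N007X.Cop
import Vale.Agent.N007X.Flip

/-! Dedekind rings of multiplications: all the charged orbits have the same mass. -/

open MeasureTheory Matrix Filter Topology Module
open scoped ENNReal nonZeroDivisors

namespace Vale.Agent.N007X

open Vale.Agent.N007
open Vale.Agent.P007 (G aexp)

variable {n : ℕ}

theorem count {H A : Type} [CommGroup H] (π : H → A) (r : H → H → Prop)
    (hπ : ∀ g g' h, π g = π g' → π (g * h) = π (g' * h))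
    (hr : ∀ g g' h, r g g' → r (g * h) (g' * h)) (g₁ g₂ : H) :
    (π '' {g | r g₁ g}).ncard = (π '' {g | r g₂ g}).ncard := by
  classical
  let F : A → A := fun a => if h : ∃ g, π g = a then π (h.choose * (g₁⁻¹ * g₂)) else a
  have hF : ∀ g, F (π g) = π (g * (g₁⁻¹ * g₂)) := fun g => by
    have h : ∃ g', π g' = π g := ⟨g, rfl⟩
    simp only [F, dif_pos h]
    exact hπ _ _ _ h.choose_spec
  have h1 : Set.InjOn F (π '' {g | r g₁ g}) := by
    rintro _ ⟨g, -, rfl⟩ _ ⟨g', -, rfl⟩ e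
    rw [hF, hF] at e
    simpa only [mul_inv_cancel_right] using hπ _ _ (g₁⁻¹ * g₂)⁻¹ e
  rw [← Set.ncard_image_of_injOn h1]
  congr 1
  ext a
  constructor
  · rintro ⟨_, ⟨g, hg, rfl⟩, rfl⟩
    have h2 := hr _ _ (g₁⁻¹ * g₂) hg
    rw [mul_inv_cancel_left] at h2
    exact ⟨_, h2, (hF g).symm⟩
  · rintro ⟨g, hg, rfl⟩
    refine ⟨_, ⟨g * (g₁⁻¹ * g₂)⁻¹, ?_, rfl⟩, by rw [hF, inv_mul_cancel_right]⟩
    have h2 := hr _ _ (g₁⁻¹ * g₂)⁻¹ hg
    rwa [_root_.mul_inv_rev, inv_inv, mul_inv_cancel_left, ← inv_inv g₁, ← _root_.mul_inv_rev,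
      inv_inv g₁] at h2

theorem pt_point (T : Triple n) (c : ClassGroup T.D.O) (w : Fin n → ℤˣ) :
    T.D.Pt (T.rep c) (T.tt c w) (T.point c w) := T.isPoint_iff.1 (T.point_spec c w)

theorem orbit_shift (T : Triple n) (g g' h : ClassGroup T.D.O × (Fin n → ℤˣ))
    (e : orbit flow (T.point g.1 g.2) = orbit flow (T.point g'.1 g'.2)) :
    orbit flow (T.point (g * h).1 (g * h).2) = orbit flow (T.point (g' * h).1 (g' * h).2) := by
  obtain ⟨c, w⟩ := g
  obtain ⟨c', w'⟩ := g'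
  obtain ⟨l, s⟩ := h
  obtain rfl : c = c' := T.class_eq (T.point_spec _ _) (T.point_spec _ _) e
  obtain ⟨u, hu⟩ : T.point c w' ∈ orbit flow (T.point c w) := e ▸ flow_flow.mem_orbit _
  have h1 := (pt_point T c w).flow u
  replace hu : flow u (T.point c w) = T.point c w' := hu
  rw [hu] at h1
  obtain ⟨α, h2, h3⟩ := Datum.Pt.compare
    (fun j => mul_ne_zero (T.tt_ne c w j) (Real.exp_pos _).ne') (T.tt_ne c w') h1 (pt_point T c w')
  have h4 : FractionalIdeal.spanSingleton T.D.O⁰ α = 1 :=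
    ((T.rep c).isUnit.mul_right_cancel (by rw [one_mul]; exact h3)).symm
  have h5 := pt_point T (c * l) (w' * s)
  rw [← one_mul (T.rep (c * l)).1, ← h4] at h5
  change orbit flow (T.point (c * l) (w * s)) = orbit flow (T.point (c * l) (w' * s))
  refine (flow_flow.orbit_eq ⟨u, ((pt_point T (c * l) (w * s)).flow u).unique ?_⟩).symm
  convert h5.smul using 2 with j
  have h6 := h2 j
  simp only [Triple.tt, mul_assoc] at h6 ⊢
  replace h6 := mul_left_cancel₀ (T.cv_pos c).ne' h6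
  simp only [Pi.mul_apply, Units.val_mul, Int.cast_mul]
  linear_combination ZLattice.covolume (T.D.emb (T.rep (c * l))) ^ (-(1 : ℝ) / n) *
    ((s j : ℤ) : ℝ) * h6

theorem avg_count (T : Triple n) {S : Set (X n)} (hm : MeasurableSet S)
    (hS : ∀ Λ ∈ S, ∀ u, flow u Λ ∈ S) :
    T.avg S = (T.P.card : ℝ≥0∞)⁻¹ * (((fun g : ClassGroup T.D.O × (Fin n → ℤˣ) =>
      orbit flow (T.point g.1 g.2)) '' {g | T.point g.1 g.2 ∈ S}).ncard : ℕ) := by
  classical
  have h1 : ∀ O ∈ T.P, oP O S = if O ⊆ S then 1 else 0 := fun O hO => by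
    have hO' := T.mem_P.1 hO
    have h2 := (Triple.oP_spec hO').2.1
    split_ifs with h
    · exact (prob_compl_eq_zero_iff hm).1 (measure_mono_null (Set.compl_subset_compl.2 h) h2)
    · refine measure_mono_null (fun y hy => ?_) h2
      refine fun hy' : y ∈ O => h ?_
      rw [← Triple.orbit_of_mem hO' hy']
      rintro _ ⟨u, rfl⟩
      exact hS y hy u
  rw [Triple.avg, Measure.smul_apply, Measure.finset_sum_apply, Finset.sum_congr rfl h1,
    Finset.sum_boole, smul_eq_mul]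
  congr 2
  rw [← Set.ncard_coe_finset]
  congr 1
  ext O
  simp only [Finset.coe_filter, Set.mem_setOf, T.mem_P, Set.mem_image]
  constructor
  · rintro ⟨⟨c, w, Λ, h, rfl⟩, h2⟩
    obtain rfl := T.eq_point h
    exact ⟨(c, w), h2 (flow_flow.mem_orbit _), rfl⟩
  · rintro ⟨g, hg, rfl⟩
    refine ⟨T.orbit_point_mem _ _, ?_⟩
    rintro _ ⟨u, rfl⟩
    exact hS _ hg u

variable {R : Subring (Fin n → ℝ)}

theorem equiv_of {A : Matrix (Fin n) (Fin n) ℝ} (hA : |A.det| = 1)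
    (hc : ∀ p ∈ R, A * diagonal p = diagonal p * A) {Λ Λ' : X n} (h : Λ ∈ Stab R)
    (h' : Λ' ∈ Stab R) (e : Λ' = gm A hA Λ) :
    ∃ φ : md R h ≃ₗ[R] md R h', ∀ v, (φ v).1 = v.1 ᵥ* A := by
  subst e
  have h4 : ∀ p v : Fin n → ℝ, p * v = v ᵥ* diagonal p := fun p v =>
    funext fun j => ((vecMul_diagonal _ _ _).trans (mul_comm _ _)).symm
  let f : md R h →ₗ[R] md R h' :=
    { toFun := fun v => ⟨v.1 ᵥ* A, v.1, v.2, rfl⟩
      map_add' := fun a b => Subtype.ext (add_vecMul A a.1 b.1)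
      map_smul' := fun r v => Subtype.ext (by
        change (r.1 * v.1) ᵥ* A = r.1 * v.1 ᵥ* A
        rw [h4, h4, vecMul_vecMul, vecMul_vecMul, hc r r.2]) }
  have hu : IsUnit A := (isUnit_iff_isUnit_det A).2 (isUnit_iff_ne_zero.2 fun e => by simp [e] at hA)
  refine ⟨LinearEquiv.ofBijective f ⟨fun a b e => Subtype.ext
    (vecMul_injective_iff_isUnit.2 hu (congrArg Subtype.val e)), ?_⟩, fun _ => rfl⟩
  rintro ⟨_, y, hy, rfl⟩
  exact ⟨⟨y, hy⟩, rfl⟩

theorem det_eq {Λ : X n} (h : Λ ∈ Stab R) (θ : md R h ≃ₗ[R] md R h)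
    {A : Matrix (Fin n) (Fin n) ℝ} (hA : ∀ v, (θ v).1 = v.1 ᵥ* A) :
    A.det = (LinearMap.det (θ.toLinearMap.restrictScalars ℤ) : ℤ) := by
  have := Λ.2.discrete
  have : IsZLattice ℝ Λ.1 := ⟨Λ.2.span⟩
  have := ZLattice.module_free ℝ Λ.1
  have := ZLattice.module_finite ℝ Λ.1
  let b := Module.finBasisOfFinrankEq ℤ Λ.1 (n := n) (by rw [ZLattice.rank ℝ Λ.1]; simp)
  have h1 := ZLattice.covolume_eq_det Λ.1 b
  rw [Λ.2.covol] at h1
  let b' : Basis (Fin n) ℤ (md R h) := b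
  set N := LinearMap.toMatrix b' b' (θ.toLinearMap.restrictScalars ℤ) with hN
  have h2 : Matrix.of ((↑) ∘ b) * A = (Int.castRingHom ℝ).mapMatrix Nᵀ * Matrix.of ((↑) ∘ b) := by
    ext i j
    have h3 := congrArg (fun v : md R h => v.1 j) (b'.sum_repr (θ (b' i)))
    simp only [hA] at h3
    refine h3.symm.trans ?_
    rw [Submodule.coe_sum, Finset.sum_apply, mul_apply]
    refine Finset.sum_congr rfl fun k _ => ?_
    rw [hN, RingHom.mapMatrix_apply, map_apply, transpose_apply, LinearMap.toMatrix_apply]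
    exact zsmul_eq_mul _ _
  have h4 := congrArg det h2
  rw [det_mul, det_mul, ← RingHom.map_det, det_transpose, hN, LinearMap.det_toMatrix,
    mul_comm] at h4
  exact mul_right_cancel₀ (fun e => by simp [e] at h1) h4

/-- The two lattices are isomorphic `R`-modules. -/
def Iso (R : Subring (Fin n → ℝ)) (Λ Λ' : X n) : Prop :=
  ∃ (h : Λ ∈ Stab R) (h' : Λ' ∈ Stab R), Nonempty (md R h ≃ₗ[R] md R h')

theorem gm_sw (w : Fin n → ℤˣ) {A : Matrix (Fin n) (Fin n) ℝ} (hA : |A.det| = 1)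
    (h : |(A * sg w).det| = 1) (Λ : X n) : sw w (gm A hA Λ) = gm (A * sg w) h Λ := by
  refine X.ext' fun v => ⟨?_, ?_⟩
  · rintro ⟨_, ⟨y, hy, rfl⟩, rfl⟩
    exact ⟨y, hy, (vecMul_vecMul y A (sg w)).symm⟩
  · rintro ⟨y, hy, rfl⟩
    exact ⟨_, ⟨y, hy, rfl⟩, vecMul_vecMul y A (sg w)⟩

theorem comm_sg (w : Fin n → ℤˣ) {A : Matrix (Fin n) (Fin n) ℝ}
    (hc : ∀ p ∈ R, A * diagonal p = diagonal p * A) :
    ∀ p ∈ R, A * sg w * diagonal p = diagonal p * (A * sg w) := fun q hq => by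
  rw [mul_assoc, sg_comm, ← mul_assoc, hc q hq, mul_assoc]

theorem iso_iff {w : Fin n → ℤˣ} (hw : (sg w).det = -1) {Λ Λ' : X n} (h : Λ ∈ Stab R) :
    Iso R Λ Λ' ↔ Λ' ∈ orbit (act R) Λ ∪ sw w ⁻¹' orbit (act R) Λ := by
  constructor
  · rintro ⟨h, h', ⟨φ⟩⟩
    obtain ⟨A, hA, h2, rfl, -⟩ := of_equiv R h h' φ
    rcases abs_eq_abs.1 (hA.trans abs_one.symm) with e | e
    · exact .inl ⟨⟨⟨A, e⟩, h2⟩, rfl⟩
    · have h3 : (A * sg w).det = 1 := by rw [det_mul, e, hw]; norm_num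
      exact .inr ⟨⟨⟨A * sg w, h3⟩, comm_sg w h2⟩, (gm_sw w hA (by rw [h3, abs_one]) Λ).symm⟩
  · rintro (⟨k, rfl⟩ | ⟨k, hk⟩)
    · obtain ⟨φ, -⟩ := equiv_of (A := k.1.1) (by rw [k.1.2, abs_one]) k.2 h (mul_mem_stab h k.2) rfl
      exact ⟨h, _, ⟨φ⟩⟩
    · have h1 : Λ' = sw w (Λ.mul k) := (sw_sw w Λ').symm.trans (congrArg (sw w) hk.symm)
      have h2 : Λ' ∈ Stab R := h1 ▸ sw_stab w (mul_mem_stab h k.2)
      obtain ⟨φ, -⟩ := equiv_of (A := k.1.1 * sg w) (by rw [det_mul, k.1.2, hw]; norm_num)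
        (comm_sg w k.2) h h2 (h1.trans (gm_sw w (by rw [k.1.2, abs_one]) _ Λ))
      exact ⟨h, h2, ⟨φ⟩⟩

theorem flip (hn : 0 < n) [IsDedekindDomain R] (hR : ∀ p ∈ R, p ≠ 0 → ∀ j, p j ≠ 0)
    {w : Fin n → ℤˣ} (hw : (sg w).det = -1) {Λ Λ' : X n} (h : Λ ∈ Stab R) (h' : Λ' ∈ Stab R)
    (e : sw w Λ ∈ orbit (act R) Λ) : sw w Λ' ∈ orbit (act R) Λ' := by
  have : Nonempty (Fin n) := ⟨⟨0, hn⟩⟩
  obtain ⟨k, hk⟩ := e
  have h1 : Λ = sw w (Λ.mul k) := (sw_sw w Λ).symm.trans (congrArg (sw w) hk.symm)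
  have h0 : (k.1.1 * sg w).det = -1 := by rw [det_mul, k.1.2, hw, one_mul]
  obtain ⟨θ, hθ⟩ := equiv_of (A := k.1.1 * sg w) (by rw [h0]; norm_num)
    (comm_sg w k.2) h h (h1.trans (gm_sw w (by rw [k.1.2, abs_one]) _ Λ))
  obtain ⟨a1, a2, -, a4, -⟩ := md_props hn hR h
  obtain ⟨b1, b2, b3, -, -⟩ := md_props hn hR h'
  obtain ⟨φ, hφ⟩ := det_flip (N := md R h') θ (by exact_mod_cast (det_eq h θ hθ).symm.trans h0)
  obtain ⟨A, hA, h2, h3, h4⟩ := of_equiv R h' h' φ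
  have h5 : (A * sg w).det = 1 := by rw [det_mul, det_eq h' φ h4, hφ, hw]; norm_num
  refine ⟨⟨⟨A * sg w, h5⟩, comm_sg w h2⟩, ?_⟩
  conv_rhs => rw [h3]
  exact (gm_sw w hA (by rw [h5, abs_one]) Λ').symm

theorem steinitz {R O K : Type} [CommRing R] [IsDedekindDomain R] [CommRing O] [IsDomain O]
    [Module.Finite ℤ O] [Field K] [Algebra O K] [IsFractionRing O K] [Algebra R O] [Algebra R K]
    [IsScalarTower R O K] (hi : Function.Injective (algebraMap R K))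
    (I J L : (FractionalIdeal O⁰ K)ˣ) (φ : (I.1 : Submodule O K) ≃ₗ[R] (J.1 : Submodule O K)) :
    Nonempty (((I * L).1 : Submodule O K) ≃ₗ[R] ((J * L).1 : Submodule O K)) := by
  have f1 : Module.Finite R O := Module.Finite.of_restrictScalars_finite ℤ _ _
  have := IsNoetherianRing.of_finite ℤ O
  have f2 : ∀ I : FractionalIdeal O⁰ K, Module.Finite R (I : Submodule O K) := fun I =>
    have : Module.Finite O (I : Submodule O K) := 
      Module.Finite.iff_fg.2 (FractionalIdeal.fg_of_isNoetherianRing le_rfl I)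
    Module.Finite.trans O _
  have f3 : ∀ I : Submodule O K, Module.IsTorsionFree R I := fun I =>
    Module.IsTorsionFree.of_smul_eq_zero fun r v e => by
      have h : algebraMap R K r * v.1 = 0 := (Algebra.smul_def r v.1).symm.trans
        (congrArg Subtype.val e)
      exact (mul_eq_zero.1 h).imp (map_eq_zero_iff _ hi).1 Subtype.ext
  have f4 : Module.IsTorsionFree R O := Module.IsTorsionFree.of_smul_eq_zero fun r v e => by
    rw [Algebra.smul_def] at e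
    refine (mul_eq_zero.1 e).imp_left fun h => hi ?_
    rw [IsScalarTower.algebraMap_apply R O K, h, map_zero, map_zero]
  obtain ⟨a⟩ := cop_sum I L
  obtain ⟨b⟩ := cop_sum J L
  exact st_cancel (M := O) ((a.restrictScalars R).trans
    ((φ.prodCongr (LinearEquiv.refl R _)).trans (b.restrictScalars R).symm))

theorem iso_shift (T : Triple n) [IsDedekindDomain R]
    (hT : ∀ p ∈ R, ∃ a ∈ T.D.O, p = fun j => T.D.σ j a)
    (g g' h : ClassGroup T.D.O × (Fin n → ℤˣ))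
    (e : Iso R (T.point g.1 g.2) (T.point g'.1 g'.2)) :
    Iso R (T.point (g * h).1 (g * h).2) (T.point (g' * h).1 (g' * h).2) := by
  let j₀ : Fin n := ⟨0, T.D.pos⟩
  choose a ha hb using fun r : R => hT r r.2
  have hinj : ∀ x y : T.D.O, T.D.σ j₀ x.1 = T.D.σ j₀ y.1 → x = y := fun x y e =>
    Subtype.ext (NumberField.RingOfIntegers.coe_injective ((T.D.σ j₀).injective e))
  have hc : ∀ (r : R) j, T.D.σ j (a r) = r.1 j := fun r j => (congrFun (hb r) j).symm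
  let ρ : R →+* T.D.O :=
    { toFun := fun r => ⟨a r, ha r⟩
      map_one' := hinj _ _ ((hc 1 j₀).trans (by simp))
      map_mul' := fun x y => hinj _ _ ((hc _ j₀).trans (by simp [hc]))
      map_zero' := hinj _ _ ((hc 0 j₀).trans (by simp))
      map_add' := fun x y => hinj _ _ ((hc _ j₀).trans (by simp [hc])) }
  letI : Algebra R T.D.O := ρ.toAlgebra
  letI : Algebra R T.D.K := ((algebraMap T.D.O T.D.K).comp ρ).toAlgebra
  have : IsScalarTower R T.D.O T.D.K := IsScalarTower.of_algebraMap_eq fun _ => rfl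
  have hd : ∀ (r : R) j, T.D.σ j (algebraMap R T.D.K r) = r.1 j := hc
  have key : ∀ (I : FractionalIdeal T.D.O⁰ T.D.K) (t : Fin n → ℝ) (Λ : X n), (∀ j, t j ≠ 0) →
      T.D.Pt I t Λ → ∃ h : Λ ∈ Stab R, Nonempty ((I : Submodule T.D.O T.D.K) ≃ₗ[R] md R h) := by
    intro I t Λ ht hΛ
    have h1 : Λ ∈ Stab R := fun p hp v hv => by
      obtain ⟨x, hx, rfl⟩ := (hΛ v).1 hv
      refine (hΛ _).2 ⟨_, ((⟨p, hp⟩ : R) • (⟨x, hx⟩ : (I : Submodule T.D.O T.D.K))).2,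
        funext fun j => ?_⟩
      rw [Submodule.coe_smul_of_tower, Algebra.smul_def, map_mul, hd, Pi.mul_apply]
      ring
    let f : (I : Submodule T.D.O T.D.K) →ₗ[R] md R h1 :=
      { toFun := fun x => ⟨fun j => t j * T.D.σ j x, (hΛ _).2 ⟨x, x.2, rfl⟩⟩
        map_add' := fun x y => Subtype.ext (funext fun j => by simp [mul_add])
        map_smul' := fun r x => Subtype.ext (funext fun j => by
          change t j * T.D.σ j (r • x.1) = r.1 j * (t j * T.D.σ j x)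
          rw [Algebra.smul_def, map_mul, hd]
          ring) }
    refine ⟨h1, ⟨LinearEquiv.ofBijective f ⟨fun x y e => Subtype.ext ((T.D.σ j₀).injective
      (mul_left_cancel₀ (ht j₀) (congrFun (congrArg Subtype.val e) j₀))), fun v => ?_⟩⟩⟩
    obtain ⟨x, hx, e⟩ := (hΛ _).1 v.2
    exact ⟨⟨x, hx⟩, Subtype.ext e.symm⟩
  have key2 : ∀ g : ClassGroup T.D.O × (Fin n → ℤˣ), ∃ h1 : T.point (g * h).1 (g * h).2 ∈ Stab R,
      Nonempty (((T.rep g.1 * T.rep h.1).1 : Submodule T.D.O T.D.K) ≃ₗ[R] md R h1) := fun g => by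
    obtain ⟨α, hα⟩ := (Datum.mk_eq_iff (I := T.rep (g * h).1) (J := T.rep g.1 * T.rep h.1)).1
      (by rw [map_mul, T.mk_rep, T.mk_rep, T.mk_rep, Prod.fst_mul])
    have h2 := pt_point T (g * h).1 (g * h).2
    rw [hα] at h2
    refine key _ _ _ (fun j => mul_ne_zero (T.tt_ne _ _ j) ((map_ne_zero _).2 ?_)) h2.smul
    rintro rfl
    exact (T.rep (g * h).1).ne_zero (by rw [hα, FractionalIdeal.spanSingleton_zero, zero_mul])
  obtain ⟨h1, h2, ⟨φ⟩⟩ := e
  obtain ⟨_, ⟨a1⟩⟩ := key _ _ _ (T.tt_ne _ _) (pt_point T g.1 g.2)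
  obtain ⟨_, ⟨a2⟩⟩ := key _ _ _ (T.tt_ne _ _) (pt_point T g'.1 g'.2)
  have : Module.Finite ℤ T.D.O := Module.Finite.of_injective
    T.D.O.subtype.toAddMonoidHom.toIntLinearMap Subtype.val_injective
  obtain ⟨b1, ⟨c1⟩⟩ := key2 g
  obtain ⟨b2, ⟨c2⟩⟩ := key2 g'
  obtain ⟨ψ⟩ := steinitz (R := R) (fun x y e => Subtype.ext (funext fun j => by
    rw [← hd, ← hd, e])) _ _ (T.rep h.1) (a1.trans (φ.trans a2.symm))
  exact ⟨b1, b2, ⟨c1.symm.trans (ψ.trans c2)⟩⟩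

theorem self_mem (R : Set (Fin n → ℝ)) (Λ : X n) : Λ ∈ orbit (act R) Λ :=
  ⟨⟨1, fun _ _ => Vale.Agent.P007.H11.zo_comm_one⟩, X.mul_one _⟩

theorem cls_mass (T : Triple n) {w : Fin n → ℤˣ} (hw : (sg w).det = -1) {Λ : X n}
    (h : Λ ∈ Stab R) (h0 : T.avg (orbit (act R) Λ) ≠ 0) :
    ∃ g₁ : ClassGroup T.D.O × (Fin n → ℤˣ),
      T.avg (orbit (act R) Λ ∪ sw w ⁻¹' orbit (act R) Λ) = (T.P.card : ℝ≥0∞)⁻¹ *
        (((fun g : ClassGroup T.D.O × (Fin n → ℤˣ) => orbit flow (T.point g.1 g.2)) ''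
          {g | Iso R (T.point g₁.1 g₁.2) (T.point g.1 g.2)}).ncard : ℕ) := by
  obtain ⟨p, hp⟩ := exists_gen' R
  have hf : ∀ y ∈ orbit (act R) Λ, ∀ u, flow u y ∈ orbit (act R) Λ := fun y hy u => by
    rw [← hp.orbit_of_mem hy]
    refine ⟨⟨aexp u, fun q _ => ?_⟩, rfl⟩
    change diagonal _ * _ = _ * diagonal _
    simp [diagonal_mul_diagonal, mul_comm]
  have hm := (hp.isClosed ⟨Λ, h, rfl⟩).measurableSet
  obtain ⟨g₁, hg⟩ : {g : ClassGroup T.D.O × (Fin n → ℤˣ) |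
      T.point g.1 g.2 ∈ orbit (act R) Λ}.Nonempty := by
    by_contra hc
    rw [avg_count T hm hf, Set.not_nonempty_iff_eq_empty.1 hc] at h0
    simp at h0
  have hf' : ∀ y ∈ orbit (act R) Λ ∪ sw w ⁻¹' orbit (act R) Λ, ∀ u,
      flow u y ∈ orbit (act R) Λ ∪ sw w ⁻¹' orbit (act R) Λ := fun y hy u =>
    hy.imp (hf y · u) fun hy => by
      rw [Set.mem_preimage, sw_flow]
      exact hf _ hy u
  obtain ⟨a1, a2, ⟨φ⟩⟩ := (iso_iff hw h).2 (.inl hg)
  have h1 : {g : ClassGroup T.D.O × (Fin n → ℤˣ) |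
      T.point g.1 g.2 ∈ orbit (act R) Λ ∪ sw w ⁻¹' orbit (act R) Λ} =
      {g | Iso R (T.point g₁.1 g₁.2) (T.point g.1 g.2)} := Set.ext fun g => by
    rw [Set.mem_setOf, Set.mem_setOf, ← iso_iff hw h]
    exact ⟨fun ⟨_, b, ⟨ψ⟩⟩ => ⟨a2, b, ⟨φ.symm.trans ψ⟩⟩, fun ⟨_, b, ⟨ψ⟩⟩ => ⟨a1, b, ⟨φ.trans ψ⟩⟩⟩
  exact ⟨g₁, by rw [avg_count T (hm.union ((continuous_sw w).measurable hm)) hf', h1]⟩

theorem two_mass (T : Triple n) (w : Fin n → ℤˣ) {Λ : X n} (h : Λ ∈ Stab R)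
    (hc : sw w Λ ∉ orbit (act R) Λ) :
    T.avg (orbit (act R) Λ ∪ sw w ⁻¹' orbit (act R) Λ) = 2 * T.avg (orbit (act R) Λ) := by
  obtain ⟨p, hp⟩ := exists_gen' R
  have hm := (hp.isClosed ⟨Λ, h, rfl⟩).measurableSet
  have hw := (continuous_sw w).measurable
  have hd : Disjoint (orbit (act R) Λ) (sw w ⁻¹' orbit (act R) Λ) :=
    Set.disjoint_left.2 fun y h1 h2 => hc (by
      rw [sw_orbit] at h2
      rw [← hp.orbit_of_mem h1, hp.orbit_of_mem h2]
      exact self_mem _ _)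
  rw [measure_union hd (hw hm), ← Measure.map_apply hw hm, sw_avg, two_mul]

/-- **Dedekind rings of multiplications: the charged orbits have the same mass.** -/
theorem equal [IsDedekindDomain R] (T : Triple n)
    (hT : ∀ p ∈ R, ∃ a ∈ T.D.O, p = fun j => T.D.σ j a) {S S' : Set (X n)} (hS : S ∈ orbs R)
    (hS' : S' ∈ orbs R) (h0 : T.avg S ≠ 0) (h0' : T.avg S' ≠ 0) : T.avg S = T.avg S' := by
  classical
  have hn := T.D.pos
  have hR : ∀ p ∈ R, p ≠ 0 → ∀ j, p j ≠ 0 := fun q hq h0 j => by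
    obtain ⟨a, -, rfl⟩ := hT q hq
    exact fun e => h0 (funext fun k => by simp [(map_eq_zero _).1 e])
  obtain ⟨p, hp⟩ := exists_gen' R
  obtain ⟨w, hw⟩ : ∃ w : Fin n → ℤˣ, (sg w).det = -1 := ⟨Function.update 1 ⟨0, hn⟩ (-1), by
    rw [sg, det_diagonal, Finset.prod_eq_single ⟨0, hn⟩ (fun j _ hj => by simp [hj]) (by simp)]
    simp⟩
  obtain ⟨Λ, h, rfl⟩ := hS
  obtain ⟨Λ', h', rfl⟩ := hS'
  obtain ⟨g, e⟩ := cls_mass T hw h h0
  obtain ⟨g', e'⟩ := cls_mass T hw h' h0'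
  have e2 := count (fun g : ClassGroup T.D.O × (Fin n → ℤˣ) => orbit flow (T.point g.1 g.2))
    (fun g g' => Iso R (T.point g.1 g.2) (T.point g'.1 g'.2)) (orbit_shift T) (iso_shift T hT) g g'
  rw [e2, ← e'] at e
  by_cases hc : sw w Λ ∈ orbit (act R) Λ
  · rwa [sw_orbit, sw_orbit, hp.orbit_of_mem hc, hp.orbit_of_mem (flip hn hR hw h h' hc),
      Set.union_self, Set.union_self] at e
  · rw [two_mass T w h hc, two_mass T w h' fun hc' => hc (flip hn hR hw h' h hc')] at e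
    exact (ENNReal.mul_right_inj two_ne_zero ENNReal.ofNat_ne_top).1 e

theorem map_root {A B : Type} [CommRing A] [CommRing B] [Algebra ℤ A] [Algebra ℤ B] (ψ : A →+* B)
    (x : A) (f : Polynomial ℤ) : ψ (Polynomial.aeval x f) = Polynomial.aeval (ψ x) f := by
  rw [Polynomial.aeval_def, Polynomial.aeval_def, Polynomial.hom_eval₂]
  congr 1
  exact RingHom.ext_int _ _

/-- For maximal orders the limit ring is a Dedekind ring. -/
theorem Seq.ded {T : ℕ → Data n} {μ : ℕ → Measure (X n)} (hn : 3 ≤ n) (h : Seq T μ)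
    (hO : ∀ i, (T i).O = ⊤) : IsDedekindDomain (rng T atTop) := by
  have := dom_of (by omega) (rng_ne (T := T))
  have := (h.sub hn).1
  refine ded_of fun a b hb ⟨f, hf, h0⟩ => ?_
  let j₀ : Fin n := ⟨0, by omega⟩
  have hb' : ∀ j, b.1 j ≠ 0 := rng_ne (T := T) b.1 b.2 fun e => hb (Subtype.ext e)
  let ev : rng T atTop →+* ℝ := (Pi.evalRingHom _ j₀).comp (rng T atTop).subtype
  have hev : Function.Injective ev := (injective_iff_map_eq_zero ev).2 fun r hr =>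
    by_contra fun e => rng_ne (T := T) r.1 r.2 (fun e' => e (Subtype.ext e')) j₀ hr
  have h1 : Polynomial.aeval (a.1 j₀ / b.1 j₀) f = 0 := by
    have h2 := congrArg (IsFractionRing.lift (K := FractionRing (rng T atTop)) hev) h0
    rwa [map_root, map_zero, map_div₀, IsFractionRing.lift_algebraMap,
      IsFractionRing.lift_algebraMap] at h2
  refine ⟨⟨fun j => a.1 j / b.1 j, mem_rng.2 ?_⟩,
    Subtype.ext (funext fun j => (mul_div_cancel₀ _ (hb' j)).symm)⟩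
  filter_upwards [mem_rng.1 a.2, mem_rng.1 b.2] with i ⟨α, _, hα⟩ ⟨β, _, hβ⟩
  have h2 : IsIntegral ℤ ((α : (T i).K) / β) := ⟨f, hf, ((T i).σ j₀).injective (by
    rw [← Polynomial.aeval_def, map_zero, map_root, map_div₀, ← h1, hα, hβ])⟩
  exact ⟨⟨_, h2⟩, hO i ▸ trivial, funext fun j => by
    rw [hα, hβ]
    exact (map_div₀ ((T i).σ j) _ _).symm⟩

theorem uniform {R : Set (Fin n → ℝ)} {p : Fin n → ℝ} (hp : Gen R p) (hf : (orbs R).Finite)
    {ρ : Measure (X n)} [IsProbabilityMeasure ρ] (h0 : ρ (Stab R)ᶜ = 0)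
    (he : ∀ S ∈ orbs R, ∀ S' ∈ orbs R, ρ S ≠ 0 → ρ S' ≠ 0 → ρ S = ρ S') {S : Set (X n)}
    (hS : S ∈ orbs R) (h : ρ S ≠ 0) : ρ S = (({S ∈ orbs R | ρ S ≠ 0}.ncard : ℕ) : ℝ≥0∞)⁻¹ := by
  classical
  have h1 : ρ (⋃ S ∈ hf.toFinset, S) = 1 := by
    simp only [Set.Finite.mem_toFinset]
    rw [← Set.sUnion_eq_biUnion, sUnion_orbs]
    exact (prob_compl_eq_zero_iff (isClosed_stab' R).measurableSet).1 h0
  rw [measure_biUnion_finset ?_ fun S hS => (hp.isClosed (hf.mem_toFinset.1 hS)).measurableSet,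
    ← Finset.sum_filter_ne_zero, Finset.sum_congr rfl (g := fun _ => ρ S) fun S' hS' =>
      he _ (hf.mem_toFinset.1 (Finset.mem_filter.1 hS').1) _ hS (Finset.mem_filter.1 hS').2 h,
    Finset.sum_const, nsmul_eq_mul, ← Set.ncard_coe_finset, Finset.coe_filter, mul_comm] at h1
  · simp only [Set.Finite.mem_toFinset] at h1
    exact ENNReal.eq_inv_of_mul_eq_one_left h1
  · intro S₁ h₁ S₂ h₂ hne
    obtain ⟨Λ₁, -, rfl⟩ := hf.mem_toFinset.1 h₁
    obtain ⟨Λ₂, -, rfl⟩ := hf.mem_toFinset.1 h₂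
    exact Set.disjoint_left.2 fun y a b =>
      hne ((hp.orbit_of_mem a).symm.trans (hp.orbit_of_mem b))

theorem Seq.equal {T : ℕ → Data n} {μ : ℕ → Measure (X n)} (hn : 3 ≤ n) (h : Seq T μ)
    [IsDedekindDomain (rng T atTop)] :
    (∀ᶠ i in atTop, ∀ S ∈ orbs (n := n) (rng T atTop), ∀ S' ∈ orbs (n := n) (rng T atTop),
      μ i S ≠ 0 → μ i S' ≠ 0 → μ i S = μ i S') ∧
    ((∀ S ∈ orbs (n := n) (rng T atTop), ∃ c, Tendsto (fun i => μ i S) atTop (𝓝 c)) ↔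
      ∃ F, ∀ᶠ i in atTop, {S ∈ orbs (n := n) (rng T atTop) | μ i S ≠ 0} = F) := by
  have h1 : ∀ᶠ i in atTop, ∀ S ∈ orbs (n := n) (rng T atTop), ∀ S' ∈ orbs (n := n) (rng T atTop),
      μ i S ≠ 0 → μ i S' ≠ 0 → μ i S = μ i S' := (h.sub hn).2.mono fun i hi S hS S' hS' => by
    rw [h.avg_eq i]
    exact N007X.equal ((T i).reps.toT (T i).σ) (fun p hp => hi hp) hS hS'
  obtain ⟨p, hp⟩ := exists_gen' (rng T atTop)
  have hf := (h.shape hn).1
  have h2 : ∀ᶠ i in atTop, ∀ S ∈ orbs (n := n) (rng T atTop), μ i S ≠ 0 →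
      μ i S = (({S ∈ orbs (n := n) (rng T atTop) | μ i S ≠ 0}.ncard : ℕ) : ℝ≥0∞)⁻¹ := by
    filter_upwards [h1, (h.sub hn).2] with i a b S hS h0
    have := h.prob i
    exact uniform hp hf (h.stab b) a hS h0
  refine ⟨h1, fun hc => ?_, fun ⟨F, hF⟩ S hS => ?_⟩
  · choose! c hc using hc
    refine ⟨{S ∈ orbs (n := n) (rng T atTop) | c S ≠ 0}, ?_⟩
    have h3 : ∀ S ∈ orbs (n := n) (rng T atTop), ∀ᶠ i in atTop, (μ i S ≠ 0 ↔ c S ≠ 0) := by
      intro S hS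
      by_cases h0 : c S = 0
      · have h4 : c S < (((orbs (n := n) (rng T atTop)).ncard : ℕ) : ℝ≥0∞)⁻¹ := by
          rw [h0]
          exact ENNReal.inv_pos.2 (ENNReal.natCast_ne_top _)
        filter_upwards [(hc S hS).eventually_lt_const h4, h2] with i a b
        refine iff_of_false (fun e => a.not_ge ?_) (not_not.2 h0)
        rw [b S hS e]
        exact ENNReal.inv_le_inv.2 (Nat.cast_le.2 (Set.ncard_le_ncard (Set.sep_subset _ _) hf))
      · exact ((hc S hS).eventually_ne h0).mono fun i a => iff_of_true a h0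
    exact ((eventually_all_finite hf).2 h3).mono fun i a =>
      Set.ext fun S => and_congr_right fun hS => a S hS
  · by_cases h0 : S ∈ F
    · refine ⟨((F.ncard : ℕ) : ℝ≥0∞)⁻¹, tendsto_const_nhds.congr' ?_⟩
      filter_upwards [hF, h2] with i a b
      subst a
      exact (b S hS h0.2).symm
    · refine ⟨0, tendsto_const_nhds.congr' ?_⟩
      filter_upwards [hF] with i a
      subst a
      exact (not_not.1 fun e => h0 ⟨hS, e⟩).symm

end Vale.Agent.N007X
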