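import Mathlib

/-!
Jordan-Zassenhaus / Latimer-MacDuffee: the integer matrices annihilated by a fixed monic irreducible
polynomial fall into finitely many conjugacy classes of `SL_n(ℤ)`.
-/

namespace Vale.Agent.N007X

open Function

/-- rank one: ideals of an order are boundedly far from principal ideals -/
theorem jz_one {O : Type} [CommRing O] [IsDomain O] {ι : Type} [Fintype ι] [DecidableEq ι]
    (b : Module.Basis ι ℤ O) : ∃ c : ℤ, c ≠ 0 ∧ ∀ I : Ideal O, I ≠ ⊥ →
      ∃ e ∈ I, e ≠ 0 ∧ ∀ a ∈ I, ∃ q : O, (c : O) * a = q * e := by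
  classical
  have : Module.Finite ℤ O := Module.Finite.of_basis b
  refine ⟨∏ m ∈ ClassGroup.finsetApprox b AbsoluteValue.absIsAdmissible, m, ?_, fun I hI => ?_⟩
  · exact Finset.prod_ne_zero_iff.2 fun m hm h =>
      ClassGroup.finsetApprox.zero_notMem b AbsoluteValue.absIsAdmissible (h ▸ hm)
  obtain ⟨e, he, he0, hmin⟩ := ClassGroup.exists_min (R := ℤ) AbsoluteValue.abs
    (⟨I, mem_nonZeroDivisors_of_ne_zero hI⟩ : nonZeroDivisors (Ideal O))
  refine ⟨e, he, he0, fun a ha => ?_⟩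
  obtain ⟨q, r, hr, hlt⟩ := ClassGroup.exists_mem_finset_approx' b
    AbsoluteValue.absIsAdmissible a he0
  have h0 : r • a - q * e = 0 :=
    hmin _ (I.sub_mem (zsmul_mem ha r) (I.mul_mem_left q he)) hlt
  obtain ⟨t, ht⟩ := Finset.dvd_prod_of_mem (fun m : ℤ => m) hr
  refine ⟨t * q, ?_⟩
  rw [ht]
  rw [zsmul_eq_mul] at h0
  push_cast
  linear_combination (t : O) * h0

/-- induction on the rank -/
theorem jz_ind {O : Type} [CommRing O] [IsDomain O] (c : O) (hc0 : c ≠ 0)
    (hc : ∀ I : Ideal O, I ≠ ⊥ → ∃ e ∈ I, e ≠ 0 ∧ ∀ a ∈ I, ∃ q : O, c * a = q * e) (m : ℕ) :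
    ∀ (L : Type) [AddCommGroup L] [Module O L] (ψ : L →ₗ[O] (Fin m → O)), Injective ψ →
      ∃ k ≤ m, ∃ φ : L →ₗ[O] (Fin k → O), Injective φ ∧
        ∀ y : Fin k → O, c ^ m • y ∈ LinearMap.range φ := by
  induction m with
  | zero =>
    intro L _ _ ψ hψ
    exact ⟨0, le_rfl, ψ, hψ, fun y => ⟨0, Subsingleton.elim _ _⟩⟩
  | succ m ih =>
    intro L _ _ ψ hψ
    let lam : L →ₗ[O] O := (LinearMap.proj 0).comp ψ
    let K : Submodule O L := LinearMap.ker lam
    let ψ' : K →ₗ[O] (Fin m → O) := (LinearMap.funLeft O O Fin.succ).comp (ψ.comp K.subtype)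
    have hψ' : Injective ψ' := by
      refine (injective_iff_map_eq_zero _).2 fun x hx => ?_
      refine Subtype.ext (hψ ?_)
      rw [ZeroMemClass.coe_zero, map_zero]
      funext i
      refine Fin.cases ?_ (fun j => ?_) i
      · exact x.2
      · exact congrFun hx j
    obtain ⟨k, hk, φ', hφ', hr⟩ := ih K ψ' hψ'
    by_cases h0 : LinearMap.range lam = ⊥
    · have hall : ∀ x : L, (LinearMap.id : L →ₗ[O] L) x ∈ K := fun x => by
        have h1 : lam x ∈ LinearMap.range lam := ⟨x, rfl⟩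
        rw [h0] at h1
        exact h1
      refine ⟨k, by omega, φ'.comp (LinearMap.id.codRestrict K hall), ?_, fun y => ?_⟩
      · intro x x' h
        exact congrArg Subtype.val (hφ' h)
      · obtain ⟨z, hz⟩ := hr (c • y)
        refine ⟨z.1, ?_⟩
        rw [pow_succ, mul_smul, ← hz]
        rfl
    · obtain ⟨e, ⟨x0, rfl⟩, he0, hq⟩ := hc (LinearMap.range lam) h0
      choose q hq using fun x : L => hq (lam x) ⟨x, rfl⟩
      let ql : L →ₗ[O] O :=
        { toFun := q
          map_add' := fun x y => mul_right_cancel₀ he0 (by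
            rw [← hq, add_mul, ← hq, ← hq, map_add, mul_add])
          map_smul' := fun a x => mul_right_cancel₀ he0 (by
            rw [← hq, RingHom.id_apply, smul_eq_mul, mul_assoc, ← hq, map_smul, smul_eq_mul]
            ring) }
      have hmem : ∀ x : L, (c • (LinearMap.id : L →ₗ[O] L) - ql.smulRight x0) x ∈ K := fun x => by
        show lam (c • x - q x • x0) = 0
        rw [map_sub, map_smul, map_smul, smul_eq_mul, smul_eq_mul, hq, sub_self]
      let π : L →ₗ[O] K := LinearMap.codRestrict K _ hmem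
      have hπ : ∀ x, (π x : L) = c • x - q x • x0 := fun x => rfl
      refine ⟨k + 1, by omega, (Fin.consLinearEquiv O (fun _ : Fin (k + 1) => O)).toLinearMap.comp
        (ql.prod (φ'.comp π)), ?_, fun y => ?_⟩
      · refine (injective_iff_map_eq_zero _).2 fun x hx => ?_
        have h1 : (ql.prod (φ'.comp π)) x = 0 :=
          (Fin.consLinearEquiv O (fun _ : Fin (k + 1) => O)).map_eq_zero_iff.1 hx
        have h2 : q x = 0 := congrArg Prod.fst h1
        have h3 : φ' (π x) = 0 := congrArg Prod.snd h1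
        have h4 : π x = 0 := hφ' (by rw [h3, map_zero])
        have h5 : c • x = 0 := by
          have := hπ x
          rw [h4, h2, zero_smul, sub_zero] at this
          exact this.symm
        have h6 : c • ψ x = 0 := by rw [← map_smul, h5, map_zero]
        refine hψ ?_
        rw [map_zero]
        exact (smul_eq_zero.1 h6).resolve_left hc0
      · obtain ⟨z, hz⟩ := hr (fun j => y j.succ)
        have hz0 : lam z.1 = 0 := z.2
        have h1 : q ((c ^ m * y 0) • x0 + z.1) = c ^ (m + 1) * y 0 := by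
          refine mul_right_cancel₀ he0 ?_
          rw [← hq, map_add, hz0, map_smul, smul_eq_mul]
          ring
        have h2 : π ((c ^ m * y 0) • x0 + z.1) = c • z := by
          refine Subtype.ext ?_
          rw [hπ, h1, smul_add, smul_smul, Submodule.coe_smul]
          have : c * (c ^ m * y 0) = c ^ (m + 1) * y 0 := by ring
          rw [this]
          abel
        refine ⟨(c ^ m * y 0) • x0 + z.1, ?_⟩
        funext i
        refine Fin.cases ?_ (fun j => ?_) i
        · exact h1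
        · show φ' (π ((c ^ m * y 0) • x0 + z.1)) j = c ^ (m + 1) * y j.succ
          rw [h2, map_smul, hz]
          show c * (c ^ m * y j.succ) = _
          ring

/-- a finitely generated torsion free module over a domain embeds in a free module -/
theorem jz_emb {O L : Type} [CommRing O] [IsDomain O] [AddCommGroup L] [Module O L]
    (htf : ∀ (a : O) (x : L), a • x = 0 → a = 0 ∨ x = 0) (n : ℕ) (s : Fin n → L)
    (hs : Submodule.span O (Set.range s) = ⊤) :
    ∃ ψ : L →ₗ[O] (Fin n → O), Injective ψ := by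
  classical
  obtain ⟨I, hI, hmax⟩ := exists_maximal_linearIndepOn O s
  let N : Submodule O L := Submodule.span O (Set.range fun i : I => s i)
  have hN : Submodule.span O (s '' I) = N := by
    congr 1
    exact Set.image_eq_range s I
  have hex : ∀ i, ∃ a : O, a ≠ 0 ∧ a • s i ∈ N := by
    intro i
    by_cases hi : i ∈ I
    · exact ⟨1, one_ne_zero, by
        rw [one_smul]
        exact Submodule.subset_span ⟨⟨i, hi⟩, rfl⟩⟩
    · rw [← hN]
      exact hmax i hi
  choose a ha ha' using hex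
  have hA : ∏ i, a i ≠ 0 := Finset.prod_ne_zero_iff.2 fun i _ => ha i
  have hall : ∀ x : L, (LinearMap.lsmul O L (∏ i, a i)) x ∈ N := by
    intro x
    have h1 : (⊤ : Submodule O L) ≤ N.comap (LinearMap.lsmul O L (∏ i, a i)) := by
      rw [← hs, Submodule.span_le]
      rintro _ ⟨i, rfl⟩
      obtain ⟨t, ht⟩ := Finset.dvd_prod_of_mem a (Finset.mem_univ i)
      show (∏ i, a i) • s i ∈ N
      rw [ht, mul_comm, mul_smul]
      exact N.smul_mem _ (ha' i)
    exact h1 Submodule.mem_top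
  let b : Module.Basis I O N := Module.Basis.span hI
  let ex : (I → O) →ₗ[O] (Fin n → O) :=
    LinearMap.pi fun i => if h : i ∈ I then LinearMap.proj (⟨i, h⟩ : I) else 0
  have hexi : Injective ex := by
    refine (injective_iff_map_eq_zero _).2 fun y hy => ?_
    funext i
    have h1 := congrFun hy i.1
    simpa [ex, i.2] using h1
  refine ⟨ex.comp (b.equivFun.toLinearMap.comp (LinearMap.codRestrict N _ hall)), ?_⟩
  refine (injective_iff_map_eq_zero _).2 fun x hx => ?_
  have h1 : b.equivFun (LinearMap.codRestrict N _ hall x) = 0 := hexi (by rw [map_zero]; exact hx)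
  have h2 : (∏ i, a i) • x = 0 := congrArg Subtype.val (b.equivFun.map_eq_zero_iff.1 h1)
  exact (htf _ _ h2).resolve_left hA

/-- finitely many subgroups contain `N • A` -/
theorem jz_fin (A : Type) [AddCommGroup A] [Module.Finite ℤ A] {N : ℤ} (hN : N ≠ 0) :
    Finite {Λ : Submodule ℤ A // ∀ y : A, N • y ∈ Λ} := by
  let p : Submodule ℤ A := LinearMap.range (LinearMap.lsmul ℤ A N)
  have : Finite (A ⧸ p) := by
    refine Module.finite_of_fg_torsion _ fun x => ?_
    refine ⟨⟨N, mem_nonZeroDivisors_of_ne_zero hN⟩, ?_⟩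
    obtain ⟨y, rfl⟩ := p.mkQ_surjective x
    show N • p.mkQ y = 0
    rw [← map_smul]
    exact (Submodule.Quotient.mk_eq_zero p).2 ⟨y, rfl⟩
  refine Finite.of_injective
    (fun Λ : {Λ : Submodule ℤ A // ∀ y : A, N • y ∈ Λ} => ((Λ.1.map p.mkQ : Submodule ℤ _) : Set (A ⧸ p)))
    fun Λ Λ' h => ?_
  have h1 : Λ.1.map p.mkQ = Λ'.1.map p.mkQ := SetLike.coe_injective h
  have h2 := congrArg (Submodule.comap p.mkQ) h1
  have h3 : ∀ T : {Λ : Submodule ℤ A // ∀ y : A, N • y ∈ Λ}, p ≤ T.1 := by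
    rintro T _ ⟨y, rfl⟩
    exact T.2 y
  rw [Submodule.comap_map_mkQ, Submodule.comap_map_mkQ, sup_eq_right.2 (h3 Λ),
    sup_eq_right.2 (h3 Λ')] at h2
  exact Subtype.ext h2

/-- the lattice attached to a matrix -/
theorem jz_lat (n : ℕ) (f : Polynomial ℤ) (hf : f.Monic) (hi : Irreducible f) :
    ∃ N : ℤ, N ≠ 0 ∧ ∀ M : Matrix (Fin n) (Fin n) ℤ, Polynomial.aeval M f = 0 →
      ∃ k ≤ n, ∃ φ : (Fin n → ℤ) →ₗ[ℤ] (Fin k → AdjoinRoot f), Injective φ ∧
        (∀ x, φ (M.mulVec x) = AdjoinRoot.root f • φ x) ∧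
        ∀ y : Fin k → AdjoinRoot f, N • y ∈ LinearMap.range φ := by
  classical
  have : IsDomain (AdjoinRoot f) := AdjoinRoot.isDomain_of_prime hi.prime
  have b := (AdjoinRoot.powerBasis' hf).basis
  have : Module.Finite ℤ (AdjoinRoot f) := Module.Finite.of_basis b
  obtain ⟨c, hc0, hc⟩ := jz_one b
  have hc1 : (c : AdjoinRoot f) ≠ 0 := fun h => hc0 (b.algebraMap_injective (by simpa using h))
  refine ⟨c ^ n, pow_ne_zero _ hc0, fun M hM => ?_⟩
  let T : Module.End ℤ (Fin n → ℤ) := Matrix.toLin' M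
  have hT : Polynomial.aeval T f = 0 := by
    have h1 := Polynomial.aeval_algHom_apply (Matrix.toLinAlgEquiv' (R := ℤ) (n := Fin n)) M f
    rw [hM, map_zero] at h1
    exact h1
  let ρ : AdjoinRoot f →+* Module.End ℤ (Fin n → ℤ) :=
    Ideal.Quotient.lift (Ideal.span {f}) (Polynomial.aeval T).toRingHom (fun a ha => by
      obtain ⟨t, rfl⟩ := Ideal.mem_span_singleton.1 ha
      show Polynomial.aeval T (f * t) = 0
      rw [map_mul, hT, zero_mul])
  have hρ : ρ (AdjoinRoot.root f) = T := Polynomial.aeval_X T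
  let _ : Module (AdjoinRoot f) (Fin n → ℤ) := Module.compHom _ ρ
  have hsm : ∀ (a : AdjoinRoot f) (x : Fin n → ℤ), a • x = ρ a x := fun _ _ => rfl
  have htf : ∀ (a : AdjoinRoot f) (x : Fin n → ℤ), a • x = 0 → a = 0 ∨ x = 0 := by
    intro a x h
    by_cases ha : a = 0
    · exact Or.inl ha
    obtain ⟨u, d, hd, hu⟩ := Algebra.IsAlgebraic.exists_smul_eq_mul ℤ (1 : AdjoinRoot f) ha
    have h1 : (d • (1 : AdjoinRoot f)) • x = 0 := by rw [hu, mul_comm, mul_smul, h, smul_zero]
    rw [smul_assoc, one_smul] at h1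
    exact Or.inr ((smul_eq_zero.1 h1).resolve_left hd)
  obtain ⟨ψ, hψ⟩ := jz_emb htf n (Pi.basisFun ℤ (Fin n)) (by
    rw [eq_top_iff]
    intro x _
    exact Submodule.span_le_restrictScalars ℤ (AdjoinRoot f) _
      (by rw [(Pi.basisFun ℤ (Fin n)).span_eq]; trivial))
  obtain ⟨k, hk, φ, hφ, hr⟩ := jz_ind (c : AdjoinRoot f) hc1 hc n _ ψ hψ
  refine ⟨k, hk, φ.toAddMonoidHom.toIntLinearMap, hφ, fun x => ?_, fun y => ?_⟩
  · show φ (M.mulVec x) = AdjoinRoot.root f • φ x
    rw [← map_smul, hsm, hρ]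
    rfl
  · obtain ⟨x, hx⟩ := hr y
    refine ⟨x, ?_⟩
    show φ x = _
    rw [hx, ← Int.cast_pow, Int.cast_smul_eq_zsmul]

/-- two matrices with the same lattice are conjugate -/
theorem jz_conj {n : ℕ} {A : Type} [AddCommGroup A] (α : A → A) {M M' : Matrix (Fin n) (Fin n) ℤ}
    (φ φ' : (Fin n → ℤ) →ₗ[ℤ] A) (hφ : Injective φ) (hφ' : Injective φ')
    (h : ∀ x, φ (M.mulVec x) = α (φ x)) (h' : ∀ x, φ' (M'.mulVec x) = α (φ' x))
    (hr : LinearMap.range φ = LinearMap.range φ') :
    ∃ U : Matrix (Fin n) (Fin n) ℤ, IsUnit U.det ∧ U * M = M' * U := by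
  let E : (Fin n → ℤ) ≃ₗ[ℤ] (Fin n → ℤ) := ((LinearEquiv.ofInjective φ hφ).trans
    (LinearEquiv.ofEq _ _ hr)).trans (LinearEquiv.ofInjective φ' hφ').symm
  have hE : ∀ x, φ' (E x) = φ x := fun x => by
    have h1 : ((LinearEquiv.ofInjective φ' hφ') (E x) : A) = φ x := by
      simp only [E, LinearEquiv.trans_apply, LinearEquiv.apply_symm_apply]
      rfl
    exact h1
  refine ⟨LinearMap.toMatrix' E.toLinearMap, ?_, ?_⟩
  · rw [LinearMap.det_toMatrix']
    exact E.isUnit_det'
  · refine Matrix.toLin'.injective (LinearMap.ext fun x => hφ' ?_)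
    rw [Matrix.toLin'_mul, Matrix.toLin'_mul, Matrix.toLin'_toMatrix']
    show φ' (E (M.mulVec x)) = φ' (M'.mulVec (E x))
    rw [hE, h, h', hE]

/-- Jordan-Zassenhaus, Latimer-MacDuffee -/
theorem jz (n : ℕ) (f : Polynomial ℤ) (hf : f.Monic) (hi : Irreducible f) :
    ∃ S : Finset (Matrix (Fin n) (Fin n) ℤ), ∀ M : Matrix (Fin n) (Fin n) ℤ,
      Polynomial.aeval M f = 0 →
      ∃ N ∈ S, ∃ U : Matrix.SpecialLinearGroup (Fin n) ℤ, U.1 * M = N * U.1 := by
  classical
  obtain ⟨c, hc0, hc⟩ := jz_lat n f hf hi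
  have : Module.Finite ℤ (AdjoinRoot f) :=
    Module.Finite.of_basis (AdjoinRoot.powerBasis' hf).basis
  let T : Type := Σ k : Fin (n + 1), {Λ : Submodule ℤ (Fin k → AdjoinRoot f) //
    ∀ y : Fin k → AdjoinRoot f, c • y ∈ Λ}
  have : ∀ k : Fin (n + 1),
      Finite {Λ : Submodule ℤ (Fin k → AdjoinRoot f) //
    ∀ y : Fin k → AdjoinRoot f, c • y ∈ Λ} := fun k => jz_fin _ hc0
  have : Fintype T := Fintype.ofFinite T
  let R : Matrix (Fin n) (Fin n) ℤ → T → Prop := fun M t =>
    ∃ φ : (Fin n → ℤ) →ₗ[ℤ] (Fin t.1 → AdjoinRoot f), Injective φ ∧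
      (∀ x, φ (M.mulVec x) = AdjoinRoot.root f • φ x) ∧ LinearMap.range φ = t.2.1
  let rep : T → Matrix (Fin n) (Fin n) ℤ := fun t => if h : ∃ M, R M t then h.choose else 0
  let D : Matrix (Fin n) (Fin n) ℤ := Matrix.diagonal fun i => if (i : ℕ) = 0 then -1 else 1
  have hDD : D * D = 1 := by
    rw [Matrix.diagonal_mul_diagonal, ← Matrix.diagonal_one]
    congr 1
    funext i
    split_ifs <;> norm_num
  refine ⟨Finset.univ.image rep ∪ Finset.univ.image fun t => D * rep t * D, fun M hM => ?_⟩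
  obtain ⟨k, hk, φ, hφ, hq, hr⟩ := hc M hM
  let t : T := ⟨⟨k, by omega⟩, ⟨LinearMap.range φ, hr⟩⟩
  have hRt : ∃ M, R M t := ⟨M, φ, hφ, hq, rfl⟩
  have hrep : R (rep t) t := by
    have h1 : rep t = hRt.choose := dif_pos hRt
    rw [h1]
    exact hRt.choose_spec
  obtain ⟨φ', hφ', hq', hr'⟩ := hrep
  obtain ⟨U, hU, hUM⟩ := jz_conj (fun y => AdjoinRoot.root f • y) φ φ' hφ hφ' hq hq' hr'.symm
  rcases Int.isUnit_iff.1 hU with h1 | h1
  · exact ⟨rep t, Finset.mem_union_left _ (Finset.mem_image_of_mem _ (Finset.mem_univ t)),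
      ⟨U, h1⟩, hUM⟩
  · have hD : D.det = -1 := by
      cases n with
      | zero =>
        rw [Matrix.det_isEmpty] at h1
        exact absurd h1 (by norm_num)
      | succ n =>
        rw [Matrix.det_diagonal, Fin.prod_univ_succ]
        simp
    refine ⟨D * rep t * D, Finset.mem_union_right _
      (Finset.mem_image_of_mem (fun t => D * rep t * D) (Finset.mem_univ t)),
      ⟨D * U, by rw [Matrix.det_mul, hD, h1]; norm_num⟩, ?_⟩
    show D * U * M = D * rep t * D * (D * U)
    rw [Matrix.mul_assoc D U, hUM, Matrix.mul_assoc (D * rep t), ← Matrix.mul_assoc D D, hDD,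
      Matrix.one_mul, Matrix.mul_assoc]

end Vale.Agent.N007X
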