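import Vale.Agent.N007X.Str

/-! The limits of packet measures on the space of lattices. -/

open MeasureTheory Matrix Filter Topology ProbabilityTheory NumberField
open scoped ENNReal CompactlySupported

namespace Vale.Agent.N007X

open Vale.Agent.N007
open Vale.Agent.P007 (G pt tr Yd isClosed_Yd)
open Vale.Agent.P007.Fib (RE mem_RE)

variable {n : ℕ} {T : ℕ → Data n} {μ : ℕ → Measure (X n)}

/-- The triple in the coset model. -/
noncomputable def dat (T : Data n) : Vale.Agent.P007.Datum n := (T.reps.toT T.σ).D.toF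

theorem mult_eq (T : Data n) : mult T = RE (dat T) := Set.ext fun _ => (mem_RE (dat T)).symm

theorem Seq.avg_eq (h : Seq T μ) (i : ℕ) : μ i = ((T i).reps.toT (T i).σ).avg :=
  ((T i).reps.toT (T i).σ).isPacketMeasure_iff.1 (h.avg i)

theorem Seq.eq (h : Seq T μ) (i : ℕ) : μ i = (dat (T i)).packetMeas.map (e n) :=
  (h.avg_eq i).trans (Triple.map_packetMeas _).symm

theorem Seq.top' (h : Seq T μ) : Tendsto (fun i => (dat (T i)).disc) atTop atTop := h.top

theorem Seq.prob (h : Seq T μ) (i : ℕ) : IsProbabilityMeasure (μ i) := by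
  rw [h.avg_eq]
  infer_instance

/-- The ring of the multiplications along a filter. -/
noncomputable def rng (T : ℕ → Data n) (l : Filter ℕ) : Subring (Fin n → ℝ) :=
  limR (fun i => dat (T i)) l

theorem mem_rng {l : Filter ℕ} {p : Fin n → ℝ} : p ∈ rng T l ↔ ∀ᶠ i in l, p ∈ mult (T i) := by
  simp only [mult_eq]
  rfl

theorem liminf_eq (T : ℕ → Data n) : liminf (fun i => mult (T i)) atTop = rng T atTop :=
  Set.ext fun _ => mem_liminf_iff_eventually_mem.trans mem_rng.symm

theorem stable_iff : limsup (fun i => mult (T i)) atTop = liminf (fun i => mult (T i)) atTop ↔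
    ∀ U : Ultrafilter ℕ, (U : Filter ℕ) ≤ atTop → rng T U = rng T atTop := by
  constructor
  · intro h U hU
    refine SetLike.ext fun p => ⟨fun hp => ?_, fun hp => mem_rng.2 ((mem_rng.1 hp).filter_mono hU)⟩
    have h1 : p ∈ limsup (fun i => mult (T i)) atTop :=
      mem_limsup_iff_frequently_mem.2 ((mem_rng.1 hp).frequently.filter_mono hU)
    rwa [h, liminf_eq] at h1
  · intro h
    refine le_antisymm (fun p hp => ?_) liminf_le_limsup
    have h1 := mem_limsup_iff_frequently_mem.1 hp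
    rw [Filter.Frequently, Filter.Eventually, mem_iff_ultrafilter] at h1
    push Not at h1
    obtain ⟨U, hU, h2⟩ := h1
    rw [liminf_eq, ← h U hU]
    exact mem_rng.2 (not_not.1 fun h3 => h2 (Ultrafilter.eventually_not.2 h3))

theorem exists_gen' (R : Subring (Fin n → ℝ)) : ∃ p, Gen (R : Set (Fin n → ℝ)) p := exists_gen R

/-- Convergence of the integrals of test functions along a filter. -/
def Along {Z : Type} [TopologicalSpace Z] [MeasurableSpace Z] (μ : ℕ → Measure Z) (l : Filter ℕ)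
    (ν : Measure Z) : Prop :=
  ∀ f : C_c(Z, ℝ), Tendsto (fun i => ∫ x, f x ∂μ i) l (𝓝 (∫ x, f x ∂ν))

theorem Along.map {Z Z' : Type} [TopologicalSpace Z] [MeasurableSpace Z] [BorelSpace Z]
    [TopologicalSpace Z'] [MeasurableSpace Z'] [BorelSpace Z'] (φ : Z ≃ₜ Z') {μ : ℕ → Measure Z}
    {l : Filter ℕ} {m : Measure Z} (h : Along μ l m) :
    Along (fun i => (μ i).map φ) l (m.map φ) := by
  intro f
  have h1 : ∀ ν : Measure Z, ∫ x, f x ∂ν.map φ = ∫ x, f (φ x) ∂ν := fun ν =>
    integral_map φ.continuous.measurable.aemeasurable f.continuous.aestronglyMeasurable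
  simp only [h1]
  exact h ⟨⟨fun x => f (φ x), f.continuous.comp φ.continuous⟩,
    f.hasCompactSupport.comp_homeomorph φ⟩

section along

variable {U : Ultrafilter ℕ} {ν : Measure (X n)}

instance [IsProbabilityMeasure ν] : IsProbabilityMeasure (ν.map (e n).symm) :=
  Measure.isProbabilityMeasure_map me'.aemeasurable

theorem Seq.lim (h : Seq T μ) (a : Along μ U ν) :
    Lim (fun i => dat (T i)) U (ν.map (e n).symm) := by
  have h1 := a.map (e n).symm
  simp only [h.eq, map_symm_e] at h1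
  exact h1

theorem Seq.exists_along (hn : 3 ≤ n) (h : Seq T μ) (hU : (U : Filter ℕ) ≤ atTop) :
    ∃ ν, IsProbabilityMeasure ν ∧ Along μ U ν := by
  obtain ⟨ν, h1, -, -, h4⟩ := Vale.Agent.P007.S11.O3.exists_limit_fam hn
    (Vale.Agent.P007.S11.keyStmt n hn) (fun i => dat (T i)) h.top' U hU
  refine ⟨ν.map (e n), Measure.isProbabilityMeasure_map me.aemeasurable, ?_⟩
  rw [funext h.eq]
  exact Along.map (e n) h4

variable [IsProbabilityMeasure ν]

theorem Seq.full (h : Seq T μ) (a : Along μ U ν) {p : Fin n → ℝ} (hp : p ∈ rng T U) :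
    ν (Stab {p})ᶜ = 0 := by
  have h1 := (h.lim a).full hp
  rwa [Measure.map_apply me' (isClosed_Yd p).measurableSet.compl, Set.preimage_compl,
    ← stab_single] at h1

theorem Seq.full' (h : Seq T μ) (a : Along μ U ν) : ν (Stab (rng T U))ᶜ = 0 := by
  have hc : (rng T U : Set (Fin n → ℝ)).Countable := limR_countable _ _
  rw [stab_eq, Set.compl_iInter₂, measure_biUnion_null_iff hc]
  exact fun p hp => h.full a hp

theorem Seq.mass (h : Seq T μ) (a : Along μ U ν) {S : Set (X n)} (hS : S ∈ orbs (rng T U)) :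
    Tendsto (fun i => μ i S) U (𝓝 (ν S)) := by
  obtain ⟨p, hp⟩ := exists_gen' (rng T U)
  obtain ⟨x, hx, rfl⟩ := hp.of_mem hS
  have hm := (Vale.Agent.P007.H11.isClosed_ZO hx).measurableSet
  have h1 := (h.lim a).mass hp.1 hx
  rw [Measure.map_apply me' hm] at h1
  refine h1.congr fun i => ?_
  rw [← Measure.map_apply me' hm, h.eq, map_symm_e]

variable (hn : 3 ≤ n) (h : Seq T μ) (hU : (U : Filter ℕ) ≤ atTop) (a : Along μ U ν)
include hn h hU a

theorem Seq.ring_eq : (rng T U : Set (Fin n → ℝ)) = {p | ν (Stab {p}) ≠ 0} := by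
  ext p
  constructor
  · intro hp
    rw [Set.mem_setOf, (prob_compl_eq_zero_iff (isClosed_stab p).measurableSet).1 (h.full a hp)]
    exact one_ne_zero
  · intro hp
    by_contra h1
    have h2 := (h.lim a).null' hn h.top' hU h1
    rw [Measure.map_apply me' (isClosed_Yd p).measurableSet, ← stab_single] at h2
    exact hp h2

theorem Seq.inv {k : G n} (hk : k ∈ Cen (rng T U)) : ν.map (fun Λ => Λ.mul k) = ν := by
  have h1 := (h.lim a).inv hn h.top' hU hk
  rw [map_symm_tr] at h1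
  rw [← map_e_symm (ν.map _), h1, map_e_symm]

end along

/-- The shape of the ring of the multiplications. -/
theorem Seq.shape (hn : 3 ≤ n) (h : Seq T μ) : (orbs (n := n) (rng T atTop)).Finite ∧
    ∃ p ∈ rng T atTop, ∃ k, 2 ≤ k ∧ (∀ j, {l | p l = p j}.ncard = k) ∧
      Cen (rng T atTop) = {g | ∀ j l, p j ≠ p l → g.1 j l = 0} := by
  classical
  obtain ⟨p, hp⟩ := exists_gen' (rng T atTop)
  obtain ⟨N, hN⟩ := exists_nat_gt (|(vandermonde p).det| ^ 2)
  obtain ⟨i, h1, h2⟩ := (Eventually.and hp.1 (h.top.eventually_ge_atTop N)).exists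
  have h3 := int_or_mult (dat (T i)) h1
    (Real.lt_sqrt_of_sq_lt (hN.trans_le (Nat.cast_le.2 h2)))
  obtain ⟨f, f1, f2, f3, f4, f5⟩ : ∃ f : Polynomial ℤ, f.Monic ∧ Irreducible f ∧ 0 < f.natDegree ∧
      f.natDegree < n ∧ ∀ j, Polynomial.aeval (p j) f = 0 := by
    rcases h3 with ⟨z, rfl⟩ | ⟨f, f1, f2, f3, f4, f5⟩
    · exact ⟨Polynomial.X - Polynomial.C z, Polynomial.monic_X_sub_C z,
        Polynomial.irreducible_X_sub_C z, by rw [Polynomial.natDegree_X_sub_C]; omega,
        by rw [Polynomial.natDegree_X_sub_C]; omega, fun j => by simp⟩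
    · exact ⟨f, f1, f2, by omega, f4, f5⟩
  have := Vale.Agent.P007.packetMeas_prob (dat (T i))
  obtain ⟨_, g, rfl, hg⟩ : (Yd p).Nonempty := by
    refine nonempty_of_measure_ne_zero (μ := (dat (T i)).packetMeas) ?_
    rw [(prob_compl_eq_zero_iff (isClosed_Yd p).measurableSet).1 (packet_Yd _ h1)]
    exact one_ne_zero
  have hl : ∀ j, {l | p l = p j}.ncard * f.natDegree = n := fun j => by
    refine Eq.trans ?_ (Vale.Agent.P007.H11.level_card f1 f2 f5 hg j)
    rw [← Set.ncard_coe_finset]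
    simp
  let j₀ : Fin n := ⟨0, by omega⟩
  refine ⟨hp.finite f1 f2 f5, p, hp.1, {l | p l = p j₀}.ncard, ?_,
    fun j => Nat.eq_of_mul_eq_mul_right f3 ((hl j).trans (hl j₀).symm), Set.ext fun g => ?_⟩
  · have h4 := hl j₀
    by_contra h5
    nlinarith
  · rw [hp.cen]
    refine ⟨fun h4 j l h5 => ?_, fun h4 => ?_⟩
    · have h6 := congrFun (congrFun h4 j) l
      rw [mul_diagonal, diagonal_mul, mul_comm] at h6
      by_contra h7
      exact h5 (mul_right_cancel₀ h7 h6).symm
    · ext j l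
      rw [mul_diagonal, diagonal_mul]
      by_cases h5 : p j = p l
      · rw [h5, mul_comm]
      · simp [h4 j l h5]

section limit

variable {ν : Measure (X n)} [IsProbabilityMeasure ν] (hn : 3 ≤ n) (h : Seq T μ) (hW : WeakTo μ ν)
include hn h hW

theorem Seq.stable (U : Ultrafilter ℕ) (hU : (U : Filter ℕ) ≤ atTop) : rng T U = rng T atTop := by
  have key : ∀ V : Ultrafilter ℕ, (V : Filter ℕ) ≤ atTop →
      (rng T V : Set (Fin n → ℝ)) = {p | ν (Stab {p}) ≠ 0} := fun V hV =>
    h.ring_eq hn hV fun f => (hW.1 f).mono_left hV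
  refine SetLike.ext fun p => ⟨fun hp => ?_, fun hp => mem_rng.2 ((mem_rng.1 hp).filter_mono hU)⟩
  refine mem_rng.2 (mem_iff_ultrafilter.2 fun V hV => mem_rng.1 ?_)
  rw [← SetLike.mem_coe, key V hV, ← key U hU]
  exact hp

theorem Seq.limit : (rng T atTop : Set (Fin n → ℝ)) = {p | ν (Stab {p}) ≠ 0} ∧
    ν (Stab (rng T atTop))ᶜ = 0 ∧ (∀ k ∈ Cen (rng T atTop), ν.map (fun Λ => Λ.mul k) = ν) ∧
    ∀ S ∈ orbs (rng T atTop), Tendsto (fun i => μ i S) atTop (𝓝 (ν S)) := by
  have hU := Ultrafilter.of_le (atTop : Filter ℕ)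
  have a : Along μ (Ultrafilter.of atTop : Ultrafilter ℕ) ν := fun f => (hW.1 f).mono_left hU
  refine ⟨?_, ?_, ?_, fun S hS => (tendsto_iff_ultrafilter _ _ _).2 fun V hV => ?_⟩
  · rw [← h.stable hn hW _ hU]
    exact h.ring_eq hn hU a
  · rw [← h.stable hn hW _ hU]
    exact h.full' a
  · rw [← h.stable hn hW _ hU]
    exact fun k => h.inv hn hU a
  · rw [← h.stable hn hW V hV] at hS
    exact h.mass (fun f => (hW.1 f).mono_left hV) hS

theorem Seq.haar {m : Measure (X n)} (hm : IsHaar m) :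
    (ν = m ↔ (rng T atTop : Set (Fin n → ℝ)) = Set.range Int.cast) ∧ (ν ≠ m → ν ⟂ₘ m) := by
  obtain ⟨h1, h2, h3, -⟩ := h.limit hn hW
  have a : (∀ p ∈ rng T atTop, ∀ j k, p j = p k) → ν = m := fun a =>
    (existsUnique_haar (by omega)).unique ⟨inferInstance, fun g => h3 g fun p hp =>
      comm_of_level (p := 0) (fun j k _ => a p hp j k) (by simp)⟩ hm
  have b : ∀ (p : Fin n → ℝ) j k, p j ≠ p k → m (Stab {p}) = 0 := fun p j k b => by
    rw [stab_single, ← Measure.map_apply me' (isClosed_Yd p).measurableSet]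
    exact Vale.Agent.P007.measure_Yd b (invProb_symm hm)
  refine ⟨⟨fun e => Set.Subset.antisymm (fun p hp => ?_) ?_, fun e => a fun p hp j k => ?_⟩,
    fun e => ?_⟩
  · obtain ⟨i, x, hx, rfl⟩ := (mem_rng.1 hp).exists
    by_contra c
    obtain ⟨j, k, d⟩ := Vale.Agent.P007.exists_ne_of_not_int (dat (T i)) x fun z hz =>
      c ⟨z, funext fun j => by
        rw [show x = z from hz]
        exact (map_intCast (((T i).σ j).comp (algebraMap (𝓞 (T i).K) (T i).K)) z).symm⟩
    rw [h1, e] at hp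
    exact hp (b _ j k d)
  · rintro _ ⟨z, rfl⟩
    exact intCast_mem _ z
  · obtain ⟨z, rfl⟩ := e.subset hp
    rfl
  · obtain ⟨p, hp, j, k, c⟩ : ∃ p ∈ rng T atTop, ∃ j k, p j ≠ p k := by
      by_contra c
      push Not at c
      exact e (a c)
    refine ⟨(Stab {p})ᶜ, (isClosed_stab p).measurableSet.compl, measure_mono_null
      (Set.compl_subset_compl.2 fun Λ hΛ => ?_) h2, by rw [compl_compl, b p j k c]⟩
    rintro _ rfl
    exact hΛ _ hp

end limit

/-- **Convergence to some limit.** -/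
theorem Seq.conv (hn : 3 ≤ n) (h : Seq T μ)
    (hs : ∀ U : Ultrafilter ℕ, (U : Filter ℕ) ≤ atTop → rng T U = rng T atTop)
    (hc : ∀ S ∈ orbs (rng T atTop), ∃ c, Tendsto (fun i => μ i S) atTop (𝓝 c)) :
    ∃ ν, IsProbabilityMeasure ν ∧ WeakTo μ ν := by
  have hU := Ultrafilter.of_le (atTop : Filter ℕ)
  obtain ⟨ν, h1, a⟩ := h.exists_along hn hU
  obtain ⟨p, hp⟩ := exists_gen' (rng T atTop)
  refine ⟨ν, h1, CcTo.weakTo (Eventually.of_forall h.prob) fun f =>
    (tendsto_iff_ultrafilter _ _ _).2 fun V hV => ?_⟩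
  obtain ⟨ν', h2, b⟩ := h.exists_along hn hV
  rw [hp.ext (h.shape hn).1.countable (ν := ν) (ν' := ν')
    (hs _ hU ▸ fun k => h.inv hn hU a) (hs _ hV ▸ fun k => h.inv hn hV b)
    (hs _ hU ▸ h.full' a) (hs _ hV ▸ h.full' b) fun S hS => ?_]
  · exact b f
  · obtain ⟨c, hc⟩ := hc S hS
    exact (tendsto_nhds_unique (h.mass a (by rwa [hs _ hU])) (hc.mono_left hU)).trans
      (tendsto_nhds_unique (hc.mono_left hV) (h.mass b (by rwa [hs _ hV])))

end Vale.Agent.N007X
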