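import Vale.Agent.N007X.Core

/-! The zero-one law: a multiplication which is not in the limit ring is seen by a null set. -/

open MeasureTheory Matrix Filter Topology NumberField
open scoped ENNReal CompactlySupported

namespace Vale.Agent.N007X

open Vale.Agent.P007 Vale.Agent.P007.Fib Vale.Agent.P007.R Vale.Agent.P007.Koopman
  Vale.Agent.P007.H11

variable {n : ℕ}

theorem latx_tr {x : X n} {v : Fin n → ℝ} (hv : v ∈ latx x) (h : G n) :
    v ᵥ* h.1 ∈ latx (tr h x) := by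
  obtain ⟨g, rfl, c, rfl⟩ := hv
  exact ⟨g * h, rfl, c, (vecMul_vecMul _ _ _).symm⟩

theorem exists_beta (hn : 0 < n) {v : Fin n → ℝ} (hv : |∏ i, v i| < 3 ^ n) :
    ∃ β : Fin n → ℝ, ∀ i, |v i * Real.exp (β i - mean β)| < 3 := by
  have hc : Continuous fun δ : ℝ => ∏ i, (|v i| + δ) := by fun_prop
  have h1 : ∀ᶠ δ : ℝ in 𝓝[>] 0, ∏ i, (|v i| + δ) < 3 ^ n :=
    nhdsWithin_le_nhds (hc.continuousAt.eventually_lt continuousAt_const
      (by simpa [Finset.abs_prod] using hv))
  obtain ⟨δ, h2, h3⟩ := (h1.and self_mem_nhdsWithin).exists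
  have h4 : ∀ i, 0 < |v i| + δ := fun i => add_pos_of_nonneg_of_pos (abs_nonneg _) h3
  have n0 : (0 : ℝ) < n := Nat.cast_pos.2 hn
  refine ⟨fun i => -Real.log (|v i| + δ), fun i => ?_⟩
  have h5 : -mean (fun i => -Real.log (|v i| + δ)) < Real.log 3 := by
    rw [mean, Finset.sum_neg_distrib, neg_div, neg_neg, div_lt_iff₀ n0,
      ← Real.log_prod fun i _ => (h4 i).ne', mul_comm, ← Real.log_pow]
    exact Real.log_lt_log (Finset.prod_pos fun i _ => h4 i) h2
  have h6 := Real.exp_lt_exp.2 h5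
  rw [Real.exp_log (by norm_num)] at h6
  rw [abs_mul, Real.abs_exp, sub_eq_add_neg, Real.exp_add, Real.exp_neg (Real.log _),
    Real.exp_log (h4 i), ← mul_assoc]
  have h7 : |v i| * (|v i| + δ)⁻¹ ≤ 1 := by
    rw [← div_eq_mul_inv, div_le_one (h4 i)]
    exact le_add_of_nonneg_right (le_of_lt h3)
  exact (mul_le_of_le_one_left (Real.exp_pos _).le h7).trans_lt h6

theorem norm_null (hn : 0 < n) {ν : Measure (X n)} (hA : AInv ν) (hS : Star ν) {N : ℝ}
    (hN : |N| < 3 ^ n) : ν {x | ∃ v ∈ latx x, v ≠ 0 ∧ ∏ i, v i = N} = 0 := by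
  obtain ⟨C, hC⟩ := hS
  let S : Set (X n) := {x | ∃ v ∈ latx x, v ≠ 0 ∧ (∀ i, |v i| < 3) ∧ ∏ i, v i = N}
  have h0 : ν S = 0 := by
    have hc : Continuous fun ε : ℝ => ENNReal.ofReal (C * √ε) :=
      ENNReal.continuous_ofReal.comp (by fun_prop)
    have h1 : Tendsto (fun ε : ℝ => ENNReal.ofReal (C * √ε)) (𝓝[>] 0) (𝓝 0) := by
      simpa using (hc.tendsto 0).mono_left (nhdsWithin_le_nhds (s := Set.Ioi 0))
    refine le_antisymm (ge_of_tendsto h1 ?_) zero_le
    filter_upwards [Ioo_mem_nhdsGT one_pos] with ε hε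
    refine (measure_mono ?_).trans (hC N ε hε.1 hε.2)
    rintro x ⟨v, h2, h3, h4, h5⟩
    exact ⟨v, h2, h3, h4, by simpa [h5] using hε.1⟩
  obtain ⟨s, hs, hsd⟩ := TopologicalSpace.exists_countable_dense (Fin n → ℝ)
  refine measure_mono_null (t := ⋃ β ∈ s, tr (da β) ⁻¹' S) ?_
    ((measure_biUnion_null_iff hs).2 fun β _ =>
      (MeasurePreserving.mk (measurable_tr _) (hA β)).quasiMeasurePreserving.preimage_null h0)
  rintro x ⟨v, h1, h2, h3⟩
  have ho : IsOpen {β : Fin n → ℝ | ∀ i, |v i * Real.exp (β i - mean β)| < 3} := by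
    rw [Set.setOf_forall]
    refine isOpen_iInter_of_finite fun i => isOpen_lt ?_ continuous_const
    unfold mean
    fun_prop
  obtain ⟨β, h4, h5⟩ := hsd.exists_mem_open ho (exists_beta hn (h3 ▸ hN))
  have h6 : ∀ i, (v ᵥ* (da β).1) i = v i * Real.exp (β i - mean β) := fun i =>
    vecMul_diagonal _ _ _
  refine Set.mem_iUnion₂.2 ⟨β, h4, _, latx_tr h1 _, fun h => h2 (funext fun i => ?_),
    fun i => (h6 i).symm ▸ h5 i, ?_⟩
  · exact (mul_eq_zero.1 ((h6 i).symm.trans (congrFun h i))).resolve_right (Real.exp_pos _).ne'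
  · have h7 := (da β).2
    rw [show (da β).1 = _ from coe_da β, det_diagonal] at h7
    simp only [h6]
    rw [Finset.prod_mul_distrib, h7, mul_one, h3]

theorem null_of_inj (hn : 0 < n) {ν : Measure (X n)} (hA : AInv ν) (hS : Star ν) {p : Fin n → ℝ}
    (hp : Function.Injective p) : ν (Yd p) = 0 := by
  obtain ⟨T, hT, -, -, hU⟩ := exists_orbits (n := n) p
  rw [hU, measure_biUnion_null_iff hT]
  intro x _
  obtain ⟨g, rfl⟩ := pt_surjective x
  obtain ⟨v, h1, h2, h3⟩ := N.SA.exists_short_vec hn g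
  have hN : |∏ i, v i| < 3 ^ n := by
    rw [Finset.abs_prod]
    calc ∏ i, |v i| ≤ ∏ _i : Fin n, (2 : ℝ) := Finset.prod_le_prod (fun _ _ => abs_nonneg _)
          fun i _ => (norm_le_pi_norm v i).trans h3
      _ = 2 ^ n := by simp
      _ < 3 ^ n := pow_lt_pow_left₀ (by norm_num) (by norm_num) hn.ne'
  refine measure_mono_null ?_ (norm_null hn hA hS hN)
  rintro _ ⟨h, hh, rfl⟩
  have h4 : h.1 = diagonal fun j => h.1 j j := by
    ext j k
    by_cases e : j = k
    · rw [e, diagonal_apply_eq]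
    rw [diagonal_apply_ne _ e]
    have h5 := congrFun (congrFun hh j) k
    rw [mul_diagonal, diagonal_mul, mul_comm] at h5
    by_contra h6
    exact e (hp (mul_right_cancel₀ h6 h5)).symm
  have h5 : ∏ j, h.1 j j = 1 := by rw [← det_diagonal, ← h4]; exact h.2
  have h6 : ∀ i, (v ᵥ* h.1) i = v i * h.1 i i := fun i => by
    conv_lhs => rw [h4]
    exact vecMul_diagonal _ _ _
  refine ⟨_, latx_tr ⟨g, rfl, h1⟩ h, fun e => h2 (funext fun i => ?_), ?_⟩
  · refine (mul_eq_zero.1 ((h6 i).symm.trans (congrFun e i))).resolve_right fun e' => ?_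
    exact zero_ne_one ((Finset.prod_eq_zero (f := fun j => h.1 j j) (Finset.mem_univ i) e').symm.trans h5)
  · simp only [h6]
    rw [Finset.prod_mul_distrib, h5, mul_one]

theorem null_of_red (hn : 0 < n) {ν : Measure (X n)} (hA : AInv ν) (hS : Star ν) {p : Fin n → ℝ}
    {f : Polynomial ℤ} {j k : Fin n} (hj : Polynomial.aeval (p j) f = 0)
    (hk : Polynomial.aeval (p k) f ≠ 0) : ν (Yd p) = 0 := by
  refine measure_mono_null (fun x hx => ?_) (norm_null hn hA hS (N := 0) (by simp))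
  obtain ⟨g, rfl⟩ := pt_surjective x
  obtain ⟨M, hM⟩ := aeval_mem_RG (pt_mem_Yd.1 hx) f
  rw [aeval_diag] at hM
  obtain ⟨i, hi⟩ : ∃ i, g.1 i k ≠ 0 := by
    by_contra h
    push Not at h
    exact zero_ne_one ((det_eq_zero_of_column_eq_zero k h).symm.trans g.2)
  have h1 : ∀ l, ((fun l => (M i l : ℝ)) ᵥ* g.1) l = g.1 i l * Polynomial.aeval (p l) f := fun l => by
    rw [← mul_diagonal (fun l => Polynomial.aeval (p l) f), hM]
    rfl
  refine ⟨_, ⟨g, rfl, M i, rfl⟩, fun e => mul_ne_zero hi hk ((h1 k).symm.trans (congrFun e k)),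
    Finset.prod_eq_zero (Finset.mem_univ j) ?_⟩
  exact (h1 j).trans (by rw [hj, mul_zero])

/-- **Zero-one law.** -/
theorem Lim.null' {D : ℕ → Datum n} {U : Ultrafilter ℕ} {ν : Measure (X n)}
    [IsProbabilityMeasure ν] (hn : 3 ≤ n) (hd : Tendsto (fun i => (D i).disc) atTop atTop)
    (hU : (U : Filter ℕ) ≤ atTop) (h : Lim D U ν) {p : Fin n → ℝ} (hp : p ∉ limR D U) :
    ν (Yd p) = 0 := by
  classical
  obtain ⟨hA, hS⟩ := h.props hn hd hU
  rcases (Yd p : Set (X n)).eq_empty_or_nonempty with e | ⟨_, g, rfl, M, hM⟩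
  · rw [e, measure_empty]
  let j : Fin n := ⟨0, by omega⟩
  have hint : IsIntegral ℤ (p j) := ⟨M.charpoly, M.charpoly_monic, by
    rw [← Polynomial.eval_map, algebraMap_int_eq, charpoly_eq hM, Polynomial.eval_prod]
    exact Finset.prod_eq_zero (Finset.mem_univ j) (by simp)⟩
  by_cases hr : ∀ k, Polynomial.aeval (p k) (minpoly ℤ (p j)) = 0
  swap
  · obtain ⟨k, hk⟩ := not_forall.1 hr
    exact null_of_red (by omega) hA hS (minpoly.aeval ℤ (p j)) hk
  have hl := level_card (minpoly.monic hint) (minpoly.irreducible hint) hr ⟨M, hM⟩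
  have h2 := minpoly.natDegree_pos hint
  by_cases h1 : (minpoly ℤ (p j)).natDegree = 1
  · obtain ⟨z, hz⟩ := minpoly.natDegree_eq_one_iff.1 h1
    have h3 := hl j
    rw [h1, mul_one] at h3
    have h4 := Finset.eq_univ_of_card _ (h3.trans (Fintype.card_fin n).symm)
    refine absurd (show p ∈ limR D U from ?_) hp
    rw [show p = (z : Fin n → ℝ) from funext fun k =>
      (Finset.mem_filter.1 (h4 ▸ Finset.mem_univ k)).2.trans hz.symm]
    exact intCast_mem _ z
  by_cases h3 : (minpoly ℤ (p j)).natDegree < n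
  · exact h.null hn hd hU ⟨_, minpoly.monic hint, minpoly.irreducible hint, by omega, h3, hr⟩ hp
  refine null_of_inj (by omega) hA hS fun a b hab => ?_
  have h4 : (Finset.univ.filter fun l => p l = p b).card ≤ 1 := by
    have h5 := hl b
    by_contra h6
    nlinarith
  exact Finset.card_le_one.1 h4 a (by simp [hab]) b (by simp)

end Vale.Agent.N007X
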