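import Vale.Agent.N007X.Main

/-! Sign matrices of determinant `-1`; rings of multiplications which are principal. -/

open MeasureTheory Matrix Filter Topology Module
open scoped ENNReal

namespace Vale.Agent.N007X

open Vale.Agent.N007
open Vale.Agent.P007 (G aexp)

variable {n : ℕ}

/-- `Λ A` for `det A = ±1`. -/
noncomputable def gm (A : Matrix (Fin n) (Fin n) ℝ) (hA : |A.det| = 1) (Λ : X n) : X n :=
  ⟨Λ.1.map (A.vecMulLinear.restrictScalars ℤ), by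
    obtain ⟨M, hM, h⟩ := unimodular_iff.1 Λ.2
    exact unimodular_iff.2 ⟨M * A, by rw [det_mul, abs_mul, hM, hA, mul_one],
      by rw [h, map_span_rows]⟩⟩

theorem mem_gm {A : Matrix (Fin n) (Fin n) ℝ} {hA : |A.det| = 1} {Λ : X n} {v : Fin n → ℝ} :
    v ∈ (gm A hA Λ).1 ↔ ∃ y ∈ Λ.1, y ᵥ* A = v := Iff.rfl

/-- The sign matrix. -/
def sg (w : Fin n → ℤˣ) : Matrix (Fin n) (Fin n) ℝ := diagonal fun j => ((w j : ℤ) : ℝ)

theorem sg_sq (w : Fin n → ℤˣ) : sg w * sg w = 1 := by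
  rw [sg, diagonal_mul_diagonal, ← diagonal_one]
  congr 1
  funext j
  rcases Int.units_eq_one_or (w j) with h | h <;> simp [h]

theorem det_sg_sq (w : Fin n → ℤˣ) : (sg w).det * (sg w).det = 1 := by
  rw [← det_mul, sg_sq, det_one]

theorem abs_det_sg (w : Fin n → ℤˣ) : |(sg w).det| = 1 := by
  rcases mul_self_eq_one_iff.1 (det_sg_sq w) with h | h <;> simp [h]

/-- `Λ w`. -/
noncomputable def sw (w : Fin n → ℤˣ) : X n → X n := gm (sg w) (abs_det_sg w)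

/-- `w g w`. -/
noncomputable def cj (w : Fin n → ℤˣ) (g : G n) : G n :=
  ⟨sg w * g.1 * sg w, by rw [det_mul, det_mul, g.2, mul_one, det_sg_sq]⟩

variable (w : Fin n → ℤˣ)

theorem sw_mul (Λ : X n) (g : G n) : sw w (Λ.mul g) = (sw w Λ).mul (cj w g) := by
  have h : ∀ y : Fin n → ℝ, (y ᵥ* sg w) ᵥ* (cj w g).1 = (y ᵥ* g.1) ᵥ* sg w := fun y => by
    rw [vecMul_vecMul, vecMul_vecMul, cj, ← mul_assoc, ← mul_assoc, sg_sq, one_mul]
  refine X.ext' fun v => ⟨?_, ?_⟩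
  · rintro ⟨_, ⟨y, hy, rfl⟩, rfl⟩
    exact ⟨_, ⟨y, hy, rfl⟩, h y⟩
  · rintro ⟨_, ⟨y, hy, rfl⟩, rfl⟩
    exact ⟨_, ⟨y, hy, rfl⟩, (h y).symm⟩

theorem sw_sw (Λ : X n) : sw w (sw w Λ) = Λ := by
  have h : ∀ y : Fin n → ℝ, (y ᵥ* sg w) ᵥ* sg w = y := fun y => by
    rw [vecMul_vecMul, sg_sq, vecMul_one]
  refine X.ext' fun v => ⟨?_, fun hv => ⟨_, ⟨v, hv, rfl⟩, h v⟩⟩
  rintro ⟨_, ⟨y, hy, rfl⟩, rfl⟩
  exact (congrArg (· ∈ Λ.1) (h y)).mpr hy

theorem sw_std : sw w (std n) = std n := by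
  have h : ∀ y ∈ (std n).1, y ᵥ* sg w ∈ (std n).1 := fun y hy => by
    obtain ⟨c, rfl⟩ := (mem_span_rows 1 y).1 hy
    refine (mem_span_rows 1 _).2 ⟨fun j => c j * w j, funext fun j => ?_⟩
    simp [sg, vecMul_diagonal]
  refine X.ext' fun v => ⟨?_, fun hv => ⟨_, h v hv, ?_⟩⟩
  · rintro ⟨y, hy, rfl⟩
    exact h y hy
  · change (v ᵥ* sg w) ᵥ* sg w = v
    rw [vecMul_vecMul, sg_sq, vecMul_one]

theorem continuous_sw : Continuous (sw w) := by
  refine continuous_coinduced_dom.2 ?_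
  have h : sw w ∘ (std n).mul = (std n).mul ∘ cj w := funext fun g => by
    simp only [Function.comp, sw_mul, sw_std]
  rw [h]
  refine continuous_coinduced_rng.comp (Continuous.subtype_mk ?_ _)
  exact (continuous_const.matrix_mul
    SpecialLinearGroup.isClosedEmbedding_val.continuous).matrix_mul continuous_const

theorem sg_comm (p : Fin n → ℝ) : sg w * diagonal p = diagonal p * sg w := by
  simp [sg, diagonal_mul_diagonal, mul_comm]

theorem sw_flow (u : Fin (n - 1) → ℝ) (Λ : X n) : sw w (flow u Λ) = flow u (sw w Λ) := by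
  rw [flow_eq, flow_eq, sw_mul]
  congr 1
  refine Subtype.ext ?_
  change sg w * diagonal _ * sg w = diagonal _
  rw [sg_comm, mul_assoc, sg_sq, mul_one]

theorem image_sw (S : Set (X n)) : sw w '' S = sw w ⁻¹' S :=
  congrFun (Set.image_eq_preimage_of_inverse (sw_sw w) (sw_sw w)) S

theorem sw_packet (T : Triple n) {S : Set (X n)} (hS : S ∈ T.packet) : sw w ⁻¹' S ∈ T.packet := by
  obtain ⟨c, w', Λ, h, rfl⟩ := hS
  refine ⟨c, w' * w, sw w Λ, fun v => ?_, ?_⟩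
  · have e : ∀ (a : ℝ) (y : Fin n → ℝ), (fun j => a * y j * (w' j : ℤ)) ᵥ* sg w =
        fun j => a * y j * ((w' * w) j : ℤ) := fun a y => funext fun j => by
      simp [sg, vecMul_diagonal, mul_assoc]
    constructor
    · rintro ⟨_, hy, rfl⟩
      obtain ⟨y, hy', rfl⟩ := (h _).1 hy
      exact ⟨y, hy', e _ y⟩
    · rintro ⟨y, hy, rfl⟩
      exact ⟨_, (h _).2 ⟨y, hy, rfl⟩, e _ y⟩
  · rw [← image_sw, orbit, ← Set.range_comp]
    exact congrArg Set.range (funext fun u => sw_flow w u Λ)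

theorem sw_avg (T : Triple n) : T.avg.map (sw w) = T.avg := by
  have hm := (continuous_sw w).measurable
  have h2 : ∀ S : Set (X n), sw w ⁻¹' (sw w ⁻¹' S) = S := fun S => Set.ext fun Λ => by
    simp [sw_sw]
  rw [Triple.avg, Measure.map_smul, ← Measure.mapₗ_apply_of_measurable hm, map_sum]
  congr 1
  refine Finset.sum_nbij' (fun S => sw w ⁻¹' S) (fun S => sw w ⁻¹' S)
    (fun S hS => T.mem_P.2 (sw_packet w T (T.mem_P.1 hS)))
    (fun S hS => T.mem_P.2 (sw_packet w T (T.mem_P.1 hS))) (fun S _ => h2 S) (fun S _ => h2 S)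
    fun S hS => ?_
  rw [Measure.mapₗ_apply_of_measurable hm]
  have h1 := T.mem_P.1 hS
  obtain ⟨a, b, c⟩ := Triple.oP_spec h1
  refine Triple.eq_oP (sw_packet w T h1) ⟨Measure.isProbabilityMeasure_map hm.aemeasurable, ?_,
    fun u => ?_⟩
  · rw [Measure.map_apply hm (Triple.isCompact_of_mem (sw_packet w T h1)).measurableSet.compl,
      Set.preimage_compl, h2, b]
  · have hf := (flow_flow.cont_z (T := flow (n := n)) u).measurable
    rw [Measure.map_map hf hm, show flow u ∘ sw w = sw w ∘ flow u from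
      funext fun Λ => (sw_flow w u Λ).symm, ← Measure.map_map hm hf, c]

variable {R : Set (Fin n → ℝ)}

theorem sw_orbit (Λ : X n) : sw w ⁻¹' orbit (act R) Λ = orbit (act R) (sw w Λ) := by
  have h : ∀ k ∈ Cen R, cj w k ∈ Cen R := fun k hk p hp => by
    change sg w * k.1 * sg w * _ = _ * (sg w * k.1 * sg w)
    rw [mul_assoc, sg_comm, ← mul_assoc, mul_assoc (sg w), hk p hp, ← mul_assoc, sg_comm]
    simp only [mul_assoc]
  ext y
  constructor
  · rintro ⟨k, hk⟩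
    exact ⟨⟨_, h k k.2⟩, (sw_mul w Λ k).symm.trans ((congrArg (sw w) hk).trans (sw_sw w y))⟩
  · rintro ⟨k, rfl⟩
    exact ⟨⟨_, h k k.2⟩, ((sw_mul w (sw w Λ) k).trans (by rw [sw_sw]; rfl)).symm⟩

theorem sw_stab {Λ : X n} (h : Λ ∈ Stab R) : sw w Λ ∈ Stab R := by
  rintro p hp _ ⟨y, hy, rfl⟩
  refine ⟨y * p, h p hp y hy, funext fun j => ?_⟩
  simp [sg, vecMul_diagonal, mul_right_comm]

theorem mat_ext (Λ : X n) {A B : Matrix (Fin n) (Fin n) ℝ} (h : ∀ v ∈ Λ.1, v ᵥ* A = v ᵥ* B) :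
    A = B := by
  have h1 : A.vecMulLinear = B.vecMulLinear := LinearMap.ext_on Λ.2.span h
  exact toLinearMapRight'.injective h1

theorem exists_mat (Λ : X n) (φ : Λ.1 →+ (Fin n → ℝ)) :
    ∃ A : Matrix (Fin n) (Fin n) ℝ, ∀ v : Λ.1, φ v = v.1 ᵥ* A := by
  have := Λ.2.discrete
  have : IsZLattice ℝ Λ.1 := ⟨Λ.2.span⟩
  have := ZLattice.module_free ℝ Λ.1
  let b := Module.Free.chooseBasis ℤ Λ.1
  let ψ : (Fin n → ℝ) →ₗ[ℝ] Fin n → ℝ := (b.ofZLatticeBasis ℝ Λ.1).constr ℝ fun i => φ (b i)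
  have h : φ.toIntLinearMap = (ψ.restrictScalars ℤ).comp Λ.1.subtype := b.ext fun i => by
    change φ (b i) = ψ (b i)
    rw [← b.ofZLatticeBasis_apply ℝ, Basis.constr_basis]
  refine ⟨LinearMap.toMatrixRight' ψ, fun v => (LinearMap.congr_fun h v).trans ?_⟩
  exact (LinearMap.congr_fun (toLinearMapRight'.apply_symm_apply ψ) v.1).symm

/-- A lattice with multiplication by `R` as an `R`-module. -/
def md (R : Subring (Fin n → ℝ)) {Λ : X n} (h : Λ ∈ Stab R) : Submodule R (Fin n → ℝ) where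
  carrier := Λ.1
  add_mem' := add_mem
  zero_mem' := zero_mem _
  smul_mem' r v hv := by
    change r.1 * v ∈ Λ.1
    rw [mul_comm]
    exact h r r.2 v hv

theorem of_equiv (R : Subring (Fin n → ℝ)) {Λ Λ' : X n} (h : Λ ∈ Stab R) (h' : Λ' ∈ Stab R)
    (φ : md R h ≃ₗ[R] md R h') :
    ∃ A hA, (∀ p ∈ R, A * diagonal p = diagonal p * A) ∧ Λ' = gm A hA Λ ∧
      ∀ v : md R h, (φ v).1 = v.1 ᵥ* A := by
  obtain ⟨A, hA⟩ := exists_mat Λ (((md R h').subtype.comp φ.toLinearMap).toAddMonoidHom)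
  obtain ⟨B, hB⟩ := exists_mat Λ' (((md R h).subtype.comp φ.symm.toLinearMap).toAddMonoidHom)
  replace hA : ∀ v : md R h, (φ v).1 = v.1 ᵥ* A := hA
  replace hB : ∀ v : md R h', (φ.symm v).1 = v.1 ᵥ* B := hB
  have h1 : A * B = 1 := mat_ext Λ fun v hv => by
    rw [← vecMul_vecMul, ← hA ⟨v, hv⟩, ← hB, φ.symm_apply_apply, vecMul_one]
  have h2 : Λ'.1 = Λ.1.map (A.vecMulLinear.restrictScalars ℤ) := by
    refine Submodule.ext fun v => ⟨fun hv => ⟨_, (φ.symm ⟨v, hv⟩).2, ?_⟩, ?_⟩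
    · exact (hA _).symm.trans (congrArg Subtype.val (φ.apply_symm_apply _))
    · rintro ⟨y, hy, rfl⟩
      exact (congrArg (· ∈ Λ'.1) (hA ⟨y, hy⟩)).mp (φ ⟨y, hy⟩).2
  have h3 : |A.det| = 1 := by
    obtain ⟨M, hM, e⟩ := unimodular_iff.1 Λ.2
    have h4 := Λ'.2.covol
    have h5 : A.det ≠ 0 := left_ne_zero_of_mul_eq_one ((det_mul A B).symm.trans (by rw [h1, det_one]))
    rw [h2, e, map_span_rows, (span_rows (by
      rw [det_mul]; exact mul_ne_zero (fun e => by simp [e] at hM) h5)).2.2, det_mul, abs_mul, hM,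
      one_mul] at h4
    exact h4
  refine ⟨A, h3, fun p hp => mat_ext Λ fun v hv => ?_, Subtype.ext h2, hA⟩
  have h4 : ∀ v : Fin n → ℝ, v ᵥ* diagonal p = p * v := fun v =>
    funext fun j => (vecMul_diagonal _ _ _).trans (mul_comm _ _)
  rw [← vecMul_vecMul, ← vecMul_vecMul, h4, h4, ← hA ⟨v, hv⟩]
  exact (congrArg Subtype.val (φ.map_smul ⟨p, hp⟩ ⟨v, hv⟩)).symm.trans (hA _)

theorem tf {R : Subring (Fin n → ℝ)} (hR : ∀ p ∈ R, p ≠ 0 → ∀ j, p j ≠ 0) (r : R)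
    (v : Fin n → ℝ) (e : r.1 * v = 0) : r = 0 ∨ v = 0 := by
  refine or_iff_not_imp_left.2 fun h0 => funext fun j => ?_
  exact (mul_eq_zero.1 (congrFun e j)).resolve_left (hR r r.2 (fun e => h0 (Subtype.ext e)) j)

theorem dom_of (hn : 0 < n) {R : Subring (Fin n → ℝ)} (hR : ∀ p ∈ R, p ≠ 0 → ∀ j, p j ≠ 0) :
    IsDomain R := by
  have : Nonempty (Fin n) := ⟨⟨0, hn⟩⟩
  have : NoZeroDivisors R := ⟨fun {a b} e =>
    (tf hR a b (congrArg Subtype.val e)).imp_right Subtype.ext⟩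
  exact NoZeroDivisors.to_isDomain R

theorem md_props (hn : 0 < n) {R : Subring (Fin n → ℝ)} (hR : ∀ p ∈ R, p ≠ 0 → ∀ j, p j ≠ 0)
    {Λ : X n} (h : Λ ∈ Stab R) : Module.Finite R (md R h) ∧ Module.IsTorsionFree R (md R h) ∧
      Nontrivial (md R h) ∧ Module.Finite ℤ R ∧ finrank ℤ (md R h) = n := by
  have := dom_of hn hR
  have := Λ.2.discrete
  have : IsZLattice ℝ Λ.1 := ⟨Λ.2.span⟩
  have f1 : Module.Finite ℤ (md R h) := ZLattice.module_finite ℝ Λ.1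
  have f2 : finrank ℤ (md R h) = n := (ZLattice.rank ℝ Λ.1).trans (by simp)
  have f3 : Module.Finite R (md R h) := Module.Finite.of_restrictScalars_finite ℤ _ _
  have f4 : Module.IsTorsionFree R (md R h) := Module.IsTorsionFree.of_smul_eq_zero fun r v e =>
    (tf hR r v (congrArg Subtype.val e)).imp_right Subtype.ext
  have : Nontrivial (md R h) := Module.nontrivial_of_finrank_pos (f2.symm ▸ hn)
  obtain ⟨v, hv⟩ := exists_ne (0 : md R h)
  exact ⟨f3, f4, this, Module.Finite.of_injective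
    ((LinearMap.toSpanSingleton R _ v).restrictScalars ℤ) (smul_left_injective R hv), f2⟩

theorem related (hn : 0 < n) (R : Subring (Fin n → ℝ)) [IsPrincipalIdealRing R]
    (hR : ∀ p ∈ R, p ≠ 0 → ∀ j, p j ≠ 0) {Λ Λ' : X n} (h : Λ ∈ Stab R) (h' : Λ' ∈ Stab R) :
    ∃ A hA, (∀ p ∈ R, A * diagonal p = diagonal p * A) ∧ Λ' = gm A hA Λ := by
  have : Nonempty (Fin n) := ⟨⟨0, hn⟩⟩
  have := dom_of hn hR
  have key : ∀ {Λ : X n} (h : Λ ∈ Stab R), Module.Finite R (md R h) ∧ Module.Free R (md R h) ∧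
      finrank ℤ R * finrank R (md R h) = n := by
    intro Λ h
    obtain ⟨f3, f4, f0, f5, f2⟩ := md_props hn hR h
    exact ⟨f3, inferInstance, (finrank_mul_finrank ℤ R _).trans f2⟩
  obtain ⟨a1, a2, a3⟩ := key h
  obtain ⟨b1, b2, b3⟩ := key h'
  obtain ⟨A, hA, h1, h2, -⟩ := of_equiv R h h' (LinearEquiv.ofFinrankEq (R := R) (md R h) (md R h')
    (Nat.eq_of_mul_eq_mul_left (Nat.pos_of_mul_pos_right (a3.symm ▸ hn)) (a3.trans b3.symm)))
  exact ⟨A, hA, h1, h2⟩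

theorem Gen.orbit_of_mem {p : Fin n → ℝ} (h : Gen R p) {Λ Λ' : X n}
    (hΛ : Λ' ∈ orbit (act R) Λ) : orbit (act R) Λ' = orbit (act R) Λ := by
  rw [h.orbit_eq] at hΛ
  rw [h.orbit_eq, h.orbit_eq]
  congr 1
  exact Set.ext fun z => ⟨fun hz => Vale.Agent.P007.H11.mem_ZO_trans hΛ hz,
    fun hz => Vale.Agent.P007.H11.mem_ZO_trans (Vale.Agent.P007.H11.mem_ZO_symm hΛ) hz⟩

/-- For a principal ring the masses of the orbits are `1` or `1 / 2`. -/
theorem mass_pid (hn : 0 < n) (R : Subring (Fin n → ℝ)) [IsPrincipalIdealRing R]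
    (hR : ∀ p ∈ R, p ≠ 0 → ∀ j, p j ≠ 0) {S : Set (X n)} (hS : S ∈ orbs R) :
    ∃ c, ∀ ρ : Measure (X n), IsProbabilityMeasure ρ → (∀ w, ρ.map (sw w) = ρ) →
      ρ (Stab R)ᶜ = 0 → ρ S = c := by
  classical
  obtain ⟨p, hp⟩ := exists_gen' R
  have hm := (hp.isClosed hS).measurableSet
  obtain ⟨Λ, hΛ, rfl⟩ := hS
  let w : Fin n → ℤˣ := Function.update 1 ⟨0, hn⟩ (-1)
  have hw : (sg w).det = -1 := by
    rw [sg, det_diagonal, Finset.prod_eq_single ⟨0, hn⟩ (fun j _ hj => by simp [w, hj]) (by simp)]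
    simp [w]
  have h1 : Stab R ⊆ orbit (act R) Λ ∪ sw w ⁻¹' orbit (act R) Λ := fun Λ' h' => by
    obtain ⟨A, hA, h2, rfl⟩ := related hn R hR hΛ h'
    rcases abs_eq_abs.1 (hA.trans abs_one.symm) with e | e
    · exact .inl ⟨⟨⟨A, e⟩, h2⟩, rfl⟩
    · refine .inr ⟨⟨⟨A * sg w, by rw [det_mul, e, hw]; norm_num⟩, fun q hq => ?_⟩,
        X.ext' fun v => ⟨?_, ?_⟩⟩
      · change A * sg w * _ = _ * (A * sg w)
        rw [mul_assoc, sg_comm, ← mul_assoc, h2 q hq, mul_assoc]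
      · rintro ⟨y, hy, rfl⟩
        exact ⟨_, ⟨y, hy, rfl⟩, vecMul_vecMul y A (sg w)⟩
      · rintro ⟨_, ⟨y, hy, rfl⟩, rfl⟩
        exact ⟨y, hy, (vecMul_vecMul y A (sg w)).symm⟩
  have hm' := (continuous_sw w).measurable hm
  have h2 : ∀ ρ : Measure (X n), IsProbabilityMeasure ρ → ρ (Stab R)ᶜ = 0 →
      ρ (orbit (act R) Λ ∪ sw w ⁻¹' orbit (act R) Λ) = 1 := fun ρ _ h0 =>
    (prob_compl_eq_zero_iff (hm.union hm')).1 (measure_mono_null (Set.compl_subset_compl.2 h1) h0)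
  by_cases hd : Disjoint (orbit (act R) Λ) (sw w ⁻¹' orbit (act R) Λ)
  · refine ⟨2⁻¹, fun ρ a b c => ?_⟩
    have h3 := h2 ρ a c
    rw [measure_union hd hm', ← Measure.map_apply (continuous_sw w).measurable hm, b w,
      ← mul_two] at h3
    exact ENNReal.eq_inv_of_mul_eq_one_left h3
  · refine ⟨1, fun ρ a _ c => ?_⟩
    obtain ⟨y, h3, h4⟩ := Set.not_disjoint_iff.1 hd
    have h5 := h2 ρ a c
    rw [sw_orbit] at h4 h5
    rwa [← hp.orbit_of_mem h4, hp.orbit_of_mem h3, Set.union_self] at h5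

theorem rng_ne {T : ℕ → Data n} : ∀ p ∈ rng T atTop, p ≠ 0 → ∀ j, p j ≠ 0 := fun q hq h0 j => by
  obtain ⟨i, a, -, rfl⟩ := (mem_rng.1 hq).exists
  exact fun e => h0 (funext fun k => by simp [(map_eq_zero _).1 e])

/-- The limit ring is finitely generated and contained in almost all the orders. -/
theorem Seq.sub {T : ℕ → Data n} {μ : ℕ → Measure (X n)} (hn : 3 ≤ n) (h : Seq T μ) :
    Module.Finite ℤ (rng T atTop) ∧ ∀ᶠ i in atTop, ↑(rng T atTop) ⊆ mult (T i) := by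
  have hU := Ultrafilter.of_le (atTop : Filter ℕ)
  obtain ⟨ν, h1, a⟩ := h.exists_along hn hU
  obtain ⟨Λ, hΛ⟩ : (Stab (n := n) (rng T (Ultrafilter.of atTop : Ultrafilter ℕ))).Nonempty := by
    refine nonempty_of_measure_ne_zero (μ := ν) ?_
    rw [(prob_compl_eq_zero_iff (isClosed_stab' _).measurableSet).1 (h.full' a)]
    exact one_ne_zero
  replace hΛ : Λ ∈ Stab (rng T atTop) := fun p hp =>
    hΛ p (mem_rng.2 ((mem_rng.1 hp).filter_mono hU))
  have := Λ.2.discrete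
  have : IsZLattice ℝ Λ.1 := ⟨Λ.2.span⟩
  have f1 : Module.Finite ℤ Λ.1 := ZLattice.module_finite ℝ Λ.1
  have : Nontrivial Λ.1 := Module.nontrivial_of_finrank_pos (R := ℤ)
    (by rw [ZLattice.rank ℝ Λ.1]; simp; omega)
  obtain ⟨v, hv⟩ := exists_ne (0 : Λ.1)
  let φ : rng T atTop →+ Λ.1 := AddMonoidHom.mk' (fun r => ⟨v.1 * r.1, hΛ r r.2 v v.2⟩)
    fun a b => Subtype.ext (mul_add _ _ _)
  have f2 : Module.Finite ℤ (rng T atTop) := Module.Finite.of_injective φ.toIntLinearMap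
    ((injective_iff_map_eq_zero φ).2 fun r hr => by
      by_contra h0
      refine hv (Subtype.ext (funext fun j => ?_))
      exact (mul_eq_zero.1 (congrFun (congrArg Subtype.val hr) j)).resolve_right
        (rng_ne r r.2 (fun e => h0 (Subtype.ext e)) j))
  refine ⟨f2, ?_⟩
  obtain ⟨s, hs⟩ := f2.fg_top
  filter_upwards [(eventually_all_finset s).2 fun r _ => mem_rng.1 r.2] with i hi p hp
  have h2 : (⟨p, hp⟩ : rng T atTop) ∈ Submodule.span ℤ (s : Set (rng T atTop)) := hs ▸ trivial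
  rw [mult_eq] at hi ⊢
  exact Submodule.span_induction (p := fun r _ => r.1 ∈ Vale.Agent.P007.Fib.RE (dat (T i)))
    hi (zero_mem _) (fun _ _ _ _ a b => add_mem a b) (fun k _ _ a => zsmul_mem a k) h2

theorem Seq.stab {T : ℕ → Data n} {μ : ℕ → Measure (X n)} (h : Seq T μ) {i : ℕ}
    (hR : R ⊆ mult (T i)) : μ i (Stab R)ᶜ = 0 := by
  rw [mult_eq] at hR
  rw [stab_eq, Set.compl_iInter₂, measure_biUnion_null_iff ((re_countable _).mono hR)]
  intro p hp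
  rw [h.eq, Measure.map_apply me (isClosed_stab p).measurableSet.compl]
  exact measure_mono_null (fun x hx hx' => hx (e_mem_stab.2 hx')) (packet_Yd _ (hR hp))

/-- **Principal rings of multiplications: the limit exists and depends only on the ring.** -/
theorem pid (hn : 3 ≤ n) (R : Subring (Fin n → ℝ)) [IsPrincipalIdealRing R] :
    ∃ ν, IsProbabilityMeasure ν ∧ ∀ (T : ℕ → Data n) (μ : ℕ → Measure (X n)), Seq T μ →
      (∀ U : Ultrafilter ℕ, (U : Filter ℕ) ≤ atTop → rng T U = rng T atTop) → rng T atTop = R →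
        WeakTo μ ν := by
  obtain ⟨p, hp⟩ := exists_gen' R
  have key : ∀ (T : ℕ → Data n) (μ : ℕ → Measure (X n)), Seq T μ → rng T atTop = R →
      (∀ p ∈ R, p ≠ 0 → ∀ j, p j ≠ 0) ∧ ∀ᶠ i in atTop, IsProbabilityMeasure (μ i) ∧
        (∀ w, (μ i).map (sw w) = μ i) ∧ μ i (Stab R)ᶜ = 0 := by
    rintro T μ h rfl
    exact ⟨rng_ne, (h.sub hn).2.mono fun i hi =>
      ⟨h.prob i, fun w => h.avg_eq i ▸ sw_avg w _, h.stab hi⟩⟩
  by_cases hex : ∃ (T : ℕ → Data n) (μ : ℕ → Measure (X n)), Seq T μ ∧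
      (∀ U : Ultrafilter ℕ, (U : Filter ℕ) ≤ atTop → rng T U = rng T atTop) ∧ rng T atTop = R
  swap
  · exact ⟨Measure.dirac (std n), inferInstance, fun T μ a b c => absurd ⟨T, μ, a, b, c⟩ hex⟩
  obtain ⟨T₀, μ₀, a₀, b₀, c₀⟩ := hex
  choose! c hc using fun S => mass_pid (by omega) R (key _ _ a₀ c₀).1 (S := S)
  have lim : ∀ (T : ℕ → Data n) (μ : ℕ → Measure (X n)), Seq T μ → rng T atTop = R →
      ∀ S ∈ orbs R, Tendsto (fun i => μ i S) atTop (𝓝 (c S)) := fun T μ a e S hS =>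
    tendsto_const_nhds.congr' ((key T μ a e).2.mono fun i hi => (hc S hS _ hi.1 hi.2.1 hi.2.2).symm)
  obtain ⟨ν₀, h1, h2⟩ := a₀.conv hn b₀ (c₀ ▸ fun S hS => ⟨_, lim _ _ a₀ c₀ S hS⟩)
  refine ⟨ν₀, h1, fun T μ a b e => ?_⟩
  obtain ⟨ν, h3, h4⟩ := a.conv hn b (e ▸ fun S hS => ⟨_, lim _ _ a e S hS⟩)
  obtain ⟨-, x1, x2, x3⟩ := a₀.limit hn h2
  obtain ⟨-, y1, y2, y3⟩ := a.limit hn h4
  have hf := (a.shape hn).1
  rw [c₀] at x1 x2 x3
  rw [e] at y1 y2 y3 hf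
  rwa [hp.ext hf.countable x2 y2 x1 y1 fun S hS =>
    (tendsto_nhds_unique (x3 S hS) (lim _ _ a₀ c₀ S hS)).trans
      (tendsto_nhds_unique (lim _ _ a e S hS) (y3 S hS))]

end Vale.Agent.N007X
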