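import Mathlib

/-!
Steinitz: finitely generated torsion free modules over a Dedekind domain split off ideals, and
cancellation holds.
-/

namespace Vale.Agent.N007X

open Function Module

/-- a linear map with a section splits -/
def st_split {R A B : Type} [CommRing R] [AddCommGroup A] [Module R A] [AddCommGroup B]
    [Module R B] (f : A →ₗ[R] B) (s : B →ₗ[R] A) (h : ∀ b, f (s b) = b) :
    A ≃ₗ[R] B × LinearMap.ker f where
  toFun a := (f a, ⟨a - s (f a), by simp [h]⟩)
  invFun p := s p.1 + p.2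
  map_add' a b := Prod.ext (map_add f a b) (Subtype.ext (by
    simp only [map_add, Prod.snd_add, Submodule.coe_add]
    abel))
  map_smul' c a := Prod.ext (map_smul f c a) (Subtype.ext (by
    simp [smul_sub]))
  left_inv a := by simp
  right_inv p := by
    have h1 : f p.2 = 0 := p.2.2
    exact Prod.ext (by simp [h, h1]) (Subtype.ext (by simp [h, h1]))

theorem st_rank {R A B : Type} [CommRing R] [IsDomain R] [AddCommGroup A] [Module R A]
    [AddCommGroup B] [Module R B] [Module.Finite R A] [Module.Finite R B] :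
    finrank R (A × B) = finrank R A + finrank R B := by
  have h1 := (LinearMap.ker (LinearMap.fst R A B)).finrank_quotient_add_finrank
  rw [((LinearMap.fst R A B).quotKerEquivOfSurjective Prod.fst_surjective).finrank_eq,
    ← LinearMap.range_inr, LinearMap.finrank_range_of_inj LinearMap.inr_injective] at h1
  exact h1.symm

variable {R : Type} [CommRing R] [IsDedekindDomain R]

theorem st_proj (M : Type) [AddCommGroup M] [Module R M] [Module.Finite R M]
    [Module.IsTorsionFree R M] : Module.Projective R M := by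
  have := Module.finitePresentation_of_finite R M
  exact Module.Flat.projective_of_finitePresentation

theorem st_summand {R M : Type} [CommRing R] [IsDedekindDomain R] [AddCommGroup M] [Module R M]
    [Module.Finite R M] [Module.IsTorsionFree R M] [Nontrivial M] :
    ∃ (I : Ideal R) (N : Submodule R M), I ≠ ⊥ ∧ Nonempty (M ≃ₗ[R] I × N) := by
  have := st_proj (R := R) M
  obtain ⟨x, hx⟩ := exists_ne (0 : M)
  obtain ⟨f, hf⟩ := Module.Projective.exists_dual_ne_zero R hx
  have := st_proj (R := R) (LinearMap.range f)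
  obtain ⟨s, hs⟩ := Module.projective_lifting_property f.rangeRestrict LinearMap.id
    f.surjective_rangeRestrict
  refine ⟨LinearMap.range f, LinearMap.ker f.rangeRestrict, fun h => hf ?_,
    ⟨st_split f.rangeRestrict s fun b => LinearMap.congr_fun hs b⟩⟩
  have h1 : f x ∈ LinearMap.range f := ⟨x, rfl⟩
  rw [h] at h1
  exact h1

theorem st_ideal_rank {I : Ideal R} (hI : I ≠ ⊥) : finrank R I = 1 := by
  have h1 : finrank R I ≤ 1 := (Submodule.finrank_le I).trans (finrank_self R).le
  have : Nontrivial I := Submodule.nontrivial_iff_ne_bot.2 hI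
  have h2 : 0 < finrank R I := finrank_pos
  omega

theorem st_one (M : Type) [AddCommGroup M] [Module R M] [Module.Finite R M]
    [Module.IsTorsionFree R M] (h : finrank R M = 1) :
    ∃ I : Ideal R, I ≠ ⊥ ∧ Nonempty (M ≃ₗ[R] I) := by
  have : Nontrivial M := nontrivial_of_finrank_pos (R := R) (by omega)
  obtain ⟨I, N, hI, ⟨e⟩⟩ := st_summand (R := R) (M := M)
  have h1 := e.finrank_eq
  rw [st_rank, st_ideal_rank hI, h] at h1
  have : Subsingleton N := finrank_zero_iff.1 (by omega : finrank R N = 0)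
  have : Unique N := uniqueOfSubsingleton 0
  exact ⟨I, hI, ⟨e.trans LinearEquiv.prodUnique⟩⟩

theorem st_two {I J : Ideal R} (hI : I ≠ ⊥) (hJ : J ≠ ⊥) :
    ∃ L : Ideal R, L ≠ ⊥ ∧ Nonempty ((I × J) ≃ₗ[R] R × L) := by
  obtain ⟨a, haI, ha⟩ := (Submodule.ne_bot_iff I).1 hI
  obtain ⟨I', hI'⟩ : I ∣ Ideal.span {a} :=
    Ideal.dvd_iff_le.2 ((Ideal.span_singleton_le_iff_mem I).2 haI)
  have h0 : I' ≠ 0 := by
    rintro rfl
    rw [mul_zero] at hI'
    exact ha (Ideal.span_singleton_eq_bot.1 hI')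
  obtain ⟨b, hb⟩ := IsDedekindDomain.exists_sup_span_eq (I := I' * J) (J := I') Ideal.mul_le_left
    (mul_ne_zero h0 hJ)
  have hbI : b ∈ I' := hb ▸ Ideal.mem_sup_right (Ideal.mem_span_singleton_self b)
  -- `a = i b + a j`
  have h1 : a ∈ Ideal.span {a} * J ⊔ I * Ideal.span {b} := by
    rw [hI', mul_assoc, ← Ideal.mul_sup, hb, ← hI']
    exact Ideal.mem_span_singleton_self a
  obtain ⟨y, hy, z, hz, hyz⟩ := Submodule.mem_sup.1 h1
  obtain ⟨j, hj, rfl⟩ := Ideal.mem_span_singleton_mul.1 hy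
  obtain ⟨i, hi, rfl⟩ := Ideal.mem_mul_span_singleton.1 hz
  have h2 : ∀ x : I, ∃ q : R, q * a = x * b := fun x =>
    Ideal.mem_span_singleton'.1 (hI' ▸ Ideal.mul_mem_mul x.2 hbI)
  choose q hq using h2
  let f : (I × J) →ₗ[R] R :=
    { toFun := fun p => q p.1 + p.2
      map_add' := fun x y => mul_right_cancel₀ ha (by
        simp only [add_mul, hq, Prod.fst_add, Prod.snd_add, Submodule.coe_add]
        ring)
      map_smul' := fun c x => mul_right_cancel₀ ha (by
        simp only [add_mul, hq, Prod.smul_fst, Prod.smul_snd, Submodule.coe_smul, smul_eq_mul,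
          RingHom.id_apply, mul_assoc]
        ring) }
  have h3 : f (⟨i, hi⟩, ⟨j, hj⟩) = 1 := mul_right_cancel₀ ha (by
    show (q ⟨i, hi⟩ + j) * a = 1 * a
    rw [add_mul, hq]
    linear_combination hyz)
  let e := st_split f (LinearMap.toSpanSingleton R _ (⟨i, hi⟩, ⟨j, hj⟩)) fun r => by
    rw [LinearMap.toSpanSingleton_apply, map_smul, h3, smul_eq_mul, mul_one]
  have h4 := e.finrank_eq
  rw [st_rank, st_rank, st_ideal_rank hI, st_ideal_rank hJ, finrank_self] at h4
  obtain ⟨L, hL, ⟨e'⟩⟩ := st_one (R := R) (LinearMap.ker f) (by omega)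
  exact ⟨L, hL, ⟨e.trans ((LinearEquiv.refl R R).prodCongr e')⟩⟩

/-- the structure theorem -/
theorem st_struct (n : ℕ) : ∀ (M : Type) [AddCommGroup M] [Module R M] [Module.Finite R M]
    [Module.IsTorsionFree R M], finrank R M = n + 1 →
    ∃ I : Ideal R, I ≠ ⊥ ∧ Nonempty (M ≃ₗ[R] (Fin n → R) × I) := by
  induction n with
  | zero =>
    intro M _ _ _ _ h
    obtain ⟨I, hI, ⟨e⟩⟩ := st_one (R := R) M h
    exact ⟨I, hI, ⟨e.trans LinearEquiv.uniqueProd.symm⟩⟩
  | succ n ih =>
    intro M _ _ _ _ h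
    have : Nontrivial M := nontrivial_of_finrank_pos (R := R) (by omega)
    obtain ⟨I, N, hI, ⟨e⟩⟩ := st_summand (R := R) (M := M)
    have h1 := e.finrank_eq
    rw [st_rank, st_ideal_rank hI, h] at h1
    obtain ⟨J, hJ, ⟨e1⟩⟩ := ih N (by omega)
    obtain ⟨L, hL, ⟨e2⟩⟩ := st_two hI hJ
    -- `I × (F × J) ≃ F × (I × J) ≃ F × (R × L) ≃ (R × F) × L`
    let a1 : M ≃ₗ[R] I × ((Fin n → R) × J) := e.trans ((LinearEquiv.refl R I).prodCongr e1)
    let a2 : (I × ((Fin n → R) × J)) ≃ₗ[R] (((Fin n → R) × I) × J) :=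
      (LinearEquiv.prodAssoc R I (Fin n → R) J).symm.trans
        ((LinearEquiv.prodComm R I (Fin n → R)).prodCongr (LinearEquiv.refl R J))
    let a3 : (((Fin n → R) × I) × J) ≃ₗ[R] ((Fin n → R) × (R × L)) :=
      (LinearEquiv.prodAssoc R (Fin n → R) I J).trans
        ((LinearEquiv.refl R (Fin n → R)).prodCongr e2)
    let a4 : ((Fin n → R) × R) ≃ₗ[R] (Fin (n + 1) → R) :=
      (LinearEquiv.prodComm R (Fin n → R) R).trans
        (Fin.consLinearEquiv R fun _ : Fin (n + 1) => R)
    let a5 : ((Fin n → R) × (R × L)) ≃ₗ[R] ((Fin (n + 1) → R) × L) :=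
      (LinearEquiv.prodAssoc R (Fin n → R) R L).symm.trans (a4.prodCongr (LinearEquiv.refl R L))
    exact ⟨L, hL, ⟨((a1.trans a2).trans a3).trans a5⟩⟩

section det

variable {S : Type} [CommRing S] {n : ℕ}

/-- the inclusion in the free module -/
def st_in (n : ℕ) (I : Ideal S) : ((Fin n → S) × I) →ₗ[S] (Fin (n + 1) → S) :=
  (Fin.consLinearEquiv S fun _ : Fin (n + 1) => S).toLinearMap.comp
    ((I.subtype.comp (LinearMap.snd S _ _)).prod (LinearMap.fst S _ _))

/-- multiplication of the first coordinate -/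
def st_out (n : ℕ) {I : Ideal S} (i : I) : (Fin (n + 1) → S) →ₗ[S] ((Fin n → S) × I) :=
  (LinearMap.funLeft S S Fin.succ).prod ((LinearMap.proj 0).smulRight i)

/-- multiplication of the other coordinates -/
def st_sc (n : ℕ) (a : S) : (Fin (n + 1) → S) →ₗ[S] (Fin (n + 1) → S) :=
  Matrix.toLin' (Matrix.diagonal (Fin.cons 1 fun _ => a))

theorem st_sc_det (a : S) : LinearMap.det (st_sc n a) = a ^ n := by
  rw [st_sc, LinearMap.det_toLin', Matrix.det_diagonal, Fin.prod_univ_succ]
  simp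

theorem st_out_in {I : Ideal S} (i : I) (u : (Fin n → S) × I) :
    st_out n i (st_sc n (i : S) (st_in n I u)) = (i : S) • u := by
  refine Prod.ext (funext fun k => ?_) (Subtype.ext ?_)
  · simp [st_out, st_sc, st_in, Matrix.mulVec_diagonal, LinearMap.funLeft]
  · simp [st_out, st_sc, st_in, Matrix.mulVec_diagonal, mul_comm]

theorem st_in_out {I : Ideal S} (i : I) (w : Fin (n + 1) → S) :
    st_in n I (st_out n i (st_sc n (i : S) w)) = (i : S) • w := by
  funext k
  refine Fin.cases ?_ (fun k => ?_) k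
  · simp [st_out, st_sc, st_in, Matrix.mulVec_diagonal, mul_comm]
  · simp [st_out, st_sc, st_in, Matrix.mulVec_diagonal, LinearMap.funLeft]

theorem st_det_mem {J : Ideal S} (φ : (Fin (n + 1) → S) →ₗ[S] ((Fin n → S) × J)) :
    LinearMap.det ((st_in n J).comp φ) ∈ J := by
  rw [← LinearMap.det_toMatrix', Matrix.det_succ_row_zero]
  refine J.sum_mem fun k _ => J.mul_mem_right _ (J.mul_mem_left _ ?_)
  rw [LinearMap.toMatrix'_apply]
  exact (φ _).2.2

theorem st_det [IsDomain S] {I J : Ideal S} (hI : I ≠ ⊥) (hJ : J ≠ ⊥)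
    (e : ((Fin n → S) × I) ≃ₗ[S] ((Fin n → S) × J)) : Nonempty (I ≃ₗ[S] J) := by
  let d : I → S := fun i => LinearMap.det ((st_in n J).comp (e.toLinearMap.comp (st_out n i)))
  let d' : J → S := fun j =>
    LinearMap.det ((st_in n I).comp (e.symm.toLinearMap.comp (st_out n j)))
  have key : ∀ (i : I) (j : J), (i : S) ≠ 0 → (j : S) ≠ 0 → d i * d' j = i * j := by
    intro i j hi hj
    have h1 : (((st_in n J).comp (e.toLinearMap.comp (st_out n i))).comp (st_sc n (i : S))).comp
        (((st_in n I).comp (e.symm.toLinearMap.comp (st_out n j))).comp (st_sc n (j : S))) =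
        ((i : S) * j) • LinearMap.id := by
      refine LinearMap.ext fun w => ?_
      show st_in n J (e (st_out n i (st_sc n (i : S) (st_in n I (e.symm (st_out n j (st_sc n (j : S) w))))))) =
        ((i : S) * j) • w
      rw [st_out_in, map_smul, e.apply_symm_apply, map_smul, st_in_out, mul_smul]
    have h2 := congrArg LinearMap.det h1
    rw [LinearMap.det_comp, LinearMap.det_comp, LinearMap.det_comp, st_sc_det, st_sc_det,
      LinearMap.det_smul, LinearMap.det_id, finrank_fin_fun] at h2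
    refine mul_right_cancel₀ (pow_ne_zero n (mul_ne_zero hi hj)) ?_
    have h3 : d i * (i : S) ^ n * (d' j * (j : S) ^ n) = ((i : S) * j) ^ (n + 1) * 1 := h2
    linear_combination h3
  obtain ⟨a, haI, ha⟩ := (Submodule.ne_bot_iff I).1 hI
  obtain ⟨b, hbJ, hb⟩ := (Submodule.ne_bot_iff J).1 hJ
  have h0 := key ⟨a, haI⟩ ⟨b, hbJ⟩ ha hb
  have hd : d ⟨a, haI⟩ ≠ 0 := fun h => by
    rw [h, zero_mul] at h0
    exact mul_ne_zero ha hb h0.symm
  have hd' : d' ⟨b, hbJ⟩ ≠ 0 := fun h => by
    rw [h, mul_zero] at h0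
    exact mul_ne_zero ha hb h0.symm
  have hm : Submodule.map (LinearMap.lsmul S S (d ⟨a, haI⟩)) I =
      Submodule.map (LinearMap.lsmul S S a) J → Nonempty (I ≃ₗ[S] J) := fun h =>
    ⟨((Submodule.equivMapOfInjective _ (LinearMap.lsmul_injective hd) I).trans
      (LinearEquiv.ofEq _ _ h)).trans
      (Submodule.equivMapOfInjective _ (LinearMap.lsmul_injective ha) J).symm⟩
  refine hm (le_antisymm ?_ ?_)
  · rintro _ ⟨i, hi, rfl⟩
    by_cases h : i = 0
    · rw [h, map_zero]
      exact Submodule.zero_mem _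
    refine ⟨d ⟨i, hi⟩, st_det_mem _, mul_right_cancel₀ hd' ?_⟩
    have h1 := key ⟨i, hi⟩ ⟨b, hbJ⟩ h hb
    show a * d ⟨i, hi⟩ * d' ⟨b, hbJ⟩ = d ⟨a, haI⟩ * i * d' ⟨b, hbJ⟩
    linear_combination a * h1 - i * h0
  · rintro _ ⟨j, hj, rfl⟩
    by_cases h : j = 0
    · rw [h, map_zero]
      exact Submodule.zero_mem _
    exact ⟨d' ⟨j, hj⟩, st_det_mem _, key ⟨a, haI⟩ ⟨j, hj⟩ ha h⟩

end det

/-- Steinitz cancellation -/
theorem st_cancel {R M N P : Type} [CommRing R] [IsDedekindDomain R]
    [AddCommGroup M] [Module R M] [Module.Finite R M] [Module.IsTorsionFree R M]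
    [AddCommGroup N] [Module R N] [Module.Finite R N] [Module.IsTorsionFree R N]
    [AddCommGroup P] [Module R P] [Module.Finite R P] [Module.IsTorsionFree R P]
    (e : (N × M) ≃ₗ[R] (P × M)) : Nonempty (N ≃ₗ[R] P) := by
  have h1 := e.finrank_eq
  rw [st_rank, st_rank] at h1
  have h2 : finrank R N = finrank R P := by omega
  rcases Nat.eq_zero_or_pos (finrank R N) with h | h
  · have : Subsingleton N := finrank_zero_iff.1 h
    have : Subsingleton P := finrank_zero_iff.1 (h2 ▸ h)
    exact ⟨LinearEquiv.ofSubsingleton N P⟩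
  obtain ⟨n, hn⟩ : ∃ n, finrank R N = n + 1 := ⟨finrank R N - 1, by omega⟩
  obtain ⟨I, hI, ⟨e1⟩⟩ := st_struct (R := R) n N hn
  obtain ⟨J, hJ, ⟨e2⟩⟩ := st_struct (R := R) n P (h2.symm.trans hn)
  have := st_proj (R := R) M
  obtain ⟨k, f, g, -, -, hfg⟩ := Module.Finite.exists_comp_eq_id_of_projective R M
  let s := st_split f g fun b => LinearMap.congr_fun hfg b
  let t : ((Fin k → R) × (Fin n → R)) ≃ₗ[R] (Fin (k + n) → R) :=
    LinearEquiv.ofFinrankEq _ _ (by simp)
  have u : ∀ (Q : Type) [AddCommGroup Q] [Module R Q] (L : Ideal R),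
      (Q ≃ₗ[R] (Fin n → R) × L) →
      (((Q × M) × LinearMap.ker f) ≃ₗ[R] (Fin (k + n) → R) × L) := fun Q _ _ L c =>
    (((((LinearEquiv.prodAssoc R _ _ _).trans (c.prodCongr s.symm)).trans
      (LinearEquiv.prodComm R _ _)).trans (LinearEquiv.prodAssoc R _ _ _).symm).trans
      (t.prodCongr (LinearEquiv.refl R L)))
  obtain ⟨v⟩ := st_det hI hJ
    (((u N I e1).symm.trans (e.prodCongr (LinearEquiv.refl R _))).trans (u P J e2))
  exact ⟨(e1.trans ((LinearEquiv.refl R _).prodCongr v)).trans e2.symm⟩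

end Vale.Agent.N007X
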