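import Vale.Agent.N007X.Defs
import Vale.Agent.N007X.Null
import Vale.Agent.N007X.JZ

/-! The orbits of the centralizer of a ring of diagonal matrices. -/

open MeasureTheory Matrix Filter Topology ProbabilityTheory
open scoped ENNReal

namespace Vale.Agent.N007X

open Vale.Agent.N007
open Vale.Agent.P007 (G pt tr lat Yd castM pt_surjective isClosed_Yd)
open Vale.Agent.P007.H11 (ZO)

variable {n : ℕ}

theorem e_mem_stab {p : Fin n → ℝ} {x : Vale.Agent.P007.X n} : e n x ∈ Stab {p} ↔ x ∈ Yd p := by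
  rw [Vale.Agent.P007.H11.mem_Yd_iff]
  constructor
  · rintro h g rfl v hv
    exact (mem_pr g _).1 (h p rfl v ((mem_pr g v).2 hv))
  · obtain ⟨g, rfl⟩ := pt_surjective x
    rintro h _ rfl v hv
    exact (mem_pr g _).2 (h g rfl v ((mem_pr g v).1 hv))

theorem stab_single (p : Fin n → ℝ) : Stab {p} = (e n).symm ⁻¹' Yd p := by
  ext Λ
  rw [Set.mem_preimage, ← e_mem_stab, Homeomorph.apply_symm_apply]

theorem isClosed_stab (p : Fin n → ℝ) : IsClosed (Stab {p}) := by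
  rw [stab_single]
  exact (isClosed_Yd p).preimage (e n).symm.continuous

theorem stab_eq (R : Set (Fin n → ℝ)) : Stab R = ⋂ p ∈ R, Stab {p} := by
  ext Λ
  simp [Stab]

theorem isClosed_stab' (R : Set (Fin n → ℝ)) : IsClosed (Stab R) := by
  rw [stab_eq]
  exact isClosed_biInter fun p _ => isClosed_stab p

theorem mul_mem_stab {R : Set (Fin n → ℝ)} {Λ : X n} (h : Λ ∈ Stab R) {k : G n} (hk : k ∈ Cen R) :
    Λ.mul k ∈ Stab R := by
  rintro p hp _ ⟨y, hy, rfl⟩
  refine ⟨y * p, h p hp y hy, ?_⟩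
  have h1 : ∀ v : Fin n → ℝ, v * p = v ᵥ* diagonal p := fun v =>
    funext fun j => (vecMul_diagonal _ _ _).symm
  change (y * p) ᵥ* k.1 = (y ᵥ* k.1) * p
  rw [h1, h1, vecMul_vecMul, vecMul_vecMul, hk p hp]

theorem sUnion_orbs (R : Set (Fin n → ℝ)) : ⋃₀ orbs R = Stab R := by
  apply Set.Subset.antisymm
  · rintro _ ⟨_, ⟨Λ, h, rfl⟩, k, rfl⟩
    exact mul_mem_stab h k.2
  · exact fun Λ h => ⟨_, ⟨Λ, h, rfl⟩, ⟨1, fun p _ => Vale.Agent.P007.H11.zo_comm_one⟩, Λ.mul_one⟩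

/-- `p` has the finest level sets in `R`. -/
def Gen (R : Set (Fin n → ℝ)) (p : Fin n → ℝ) : Prop :=
  p ∈ R ∧ ∀ q ∈ R, ∀ j k, p j = p k → q j = q k

variable {R : Set (Fin n → ℝ)} {p : Fin n → ℝ}

theorem Gen.cen (h : Gen R p) {k : G n} : k ∈ Cen R ↔ k.1 * diagonal p = diagonal p * k.1 :=
  ⟨fun hk => hk p h.1, fun hk q hq => comm_of_level (h.2 q hq) hk⟩

theorem Gen.orbit_eq (h : Gen R p) (Λ : X n) :
    orbit (act R) Λ = (e n).symm ⁻¹' ZO p ((e n).symm Λ) := by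
  obtain ⟨x, rfl⟩ := (e n).surjective Λ
  ext y
  obtain ⟨y, rfl⟩ := (e n).surjective y
  simp only [Set.mem_preimage, Homeomorph.symm_apply_apply]
  constructor
  · rintro ⟨k, hk⟩
    exact ⟨k, h.cen.1 k.2, (e n).injective (hk.symm.trans (e_tr _ _).symm)⟩
  · rintro ⟨k, hk, rfl⟩
    exact ⟨⟨k, h.cen.2 hk⟩, (e_tr _ _).symm⟩

theorem Gen.of_mem (h : Gen R p) {S : Set (X n)} (hS : S ∈ orbs R) :
    ∃ x ∈ Yd p, S = (e n).symm ⁻¹' ZO p x := by
  obtain ⟨Λ, hΛ, rfl⟩ := hS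
  refine ⟨_, e_mem_stab.1 ?_, h.orbit_eq Λ⟩
  rw [Homeomorph.apply_symm_apply]
  rintro _ rfl
  exact hΛ _ h.1

theorem Gen.isClosed (h : Gen R p) {S : Set (X n)} (hS : S ∈ orbs R) : IsClosed S := by
  obtain ⟨x, hx, rfl⟩ := h.of_mem hS
  exact (Vale.Agent.P007.H11.isClosed_ZO hx).preimage (e n).symm.continuous

theorem map_symm_tr (ν : Measure (X n)) (k : G n) :
    (ν.map (e n).symm).map (tr k) = (ν.map fun Λ => Λ.mul k).map (e n).symm := by
  rw [Measure.map_map (Vale.Agent.P007.continuous_tr k).measurable me',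
    Measure.map_map me' (continuous_mul' k).measurable]
  congr 1
  funext Λ
  apply (e n).injective
  simp [e_tr]

theorem Gen.unique (h : Gen R p) {S : Set (X n)} (hS : S ∈ orbs R) :
    {κ | IsOrbitProb (act R) S κ}.Subsingleton := by
  obtain ⟨x, hx, rfl⟩ := h.of_mem hS
  have hc := Vale.Agent.P007.H11.isClosed_ZO hx
  have key : ∀ κ, IsOrbitProb (act R) ((e n).symm ⁻¹' ZO p x) κ →
      IsProbabilityMeasure (κ.map (e n).symm) ∧ κ.map (e n).symm (ZO p x) = 1 ∧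
      ∀ k : G n, k.1 * diagonal p = diagonal p * k.1 →
        (κ.map (e n).symm).map (tr k) = κ.map (e n).symm := by
    rintro κ ⟨h1, h2, h3⟩
    refine ⟨Measure.isProbabilityMeasure_map me'.aemeasurable, ?_, fun k hk => ?_⟩
    · rw [Measure.map_apply me' hc.measurableSet]
      exact (prob_compl_eq_zero_iff (me' hc.measurableSet)).1 h2
    · rw [map_symm_tr]
      exact congrArg _ (h3 ⟨k, h.cen.2 hk⟩)
  intro κ h1 κ' h2
  obtain ⟨a1, a2, a3⟩ := key κ h1
  obtain ⟨b1, b2, b3⟩ := key κ' h2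
  rw [← map_e_symm κ, ← map_e_symm κ', Vale.Agent.P007.H11.homog_unique hc a2 b2 a3 b3]

theorem Gen.finite (h : Gen R p) {f : Polynomial ℤ} (hf : f.Monic) (hi : Irreducible f)
    (hr : ∀ j, Polynomial.aeval (p j) f = 0) : (orbs R).Finite := by
  classical
  obtain ⟨S, hS⟩ := jz n f hf hi
  have key : ∀ x ∈ Yd p, ∃ N ∈ S, N ∈ Vale.Agent.P007.H11.ZCs p x := by
    rintro _ ⟨g, rfl, M, hM⟩
    have h1 := Vale.Agent.P007.H11.aeval_conj _ _ _ hM f
    rw [Vale.Agent.P007.H11.aeval_diag] at h1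
    simp only [hr, diagonal_zero, mul_zero] at h1
    have h2 : castM (Polynomial.aeval M f) = Polynomial.aeval (castM M) f :=
      (Polynomial.aeval_algHom_apply (RingHom.toIntAlgHom ((Int.castRingHom ℝ).mapMatrix :
        Matrix (Fin n) (Fin n) ℤ →+* Matrix (Fin n) (Fin n) ℝ)) M f).symm
    have h3 : castM (Polynomial.aeval M f) = 0 := by
      rw [h2, ← mul_one (Polynomial.aeval _ f), ← Vale.Agent.P007.coe_mul_inv g, ← mul_assoc, ← h1,
        zero_mul]
    obtain ⟨N, hN, U, hU⟩ := hS M (by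
      ext i j
      exact Int.cast_injective (α := ℝ) ((congrFun (congrFun h3 i) j).trans (by simp)))
    let u : G n := SpecialLinearGroup.map (Int.castRingHom ℝ) U
    have hu : u.1 = castM U.1 := rfl
    refine ⟨N, hN, u * g, Vale.Agent.P007.pt_eq_pt.2 ⟨U, by simp [u]⟩, ?_⟩
    have h4 : (u * g).1 = castM U.1 * g.1 := Vale.Agent.P007.coe_mul_G u g
    have h5 : g.1 * diagonal p = castM M * g.1 := hM
    rw [h4, mul_assoc, h5, ← mul_assoc, ← Vale.Agent.P007.castM_mul, hU,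
      Vale.Agent.P007.castM_mul, mul_assoc]
  choose! N hN hN' using key
  have h1 : ∀ S ∈ orbs R, ∃ x ∈ Yd p, S = (e n).symm ⁻¹' ZO p x := fun S hS => h.of_mem hS
  have : Nonempty (Vale.Agent.P007.X n) := ⟨pt 1⟩
  choose! x hx hx' using h1
  refine Set.Finite.of_finite_image (f := fun S => N (x S))
    (S.finite_toSet.subset ?_) fun A hA B hB hAB => ?_
  · rintro _ ⟨A, hA, rfl⟩
    exact hN _ (hx A hA)
  · have h2 := hN' _ (hx B hB)
    rw [← show N (x A) = N (x B) from hAB] at h2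
    have h3 := Vale.Agent.P007.H11.mem_ZO_of_ZCs (hN' _ (hx A hA)) h2
    rw [hx' A hA, hx' B hB]
    congr 1
    exact Set.ext fun z => ⟨fun hz => Vale.Agent.P007.H11.mem_ZO_trans
      (Vale.Agent.P007.H11.mem_ZO_symm h3) hz, fun hz => Vale.Agent.P007.H11.mem_ZO_trans h3 hz⟩

theorem Gen.cond (h : Gen R p) {ν : Measure (X n)} [IsFiniteMeasure ν]
    (hν : ∀ k ∈ Cen R, ν.map (fun Λ => Λ.mul k) = ν) {S : Set (X n)} (hS : S ∈ orbs R)
    (h0 : ν S ≠ 0) : IsOrbitProb (act R) S ν[|S] := by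
  have hm := (h.isClosed hS).measurableSet
  refine ⟨cond_isProbabilityMeasure h0, ?_, fun k => ?_⟩
  · rw [cond_apply hm, Set.inter_compl_self, measure_empty, mul_zero]
  · have h1 : MeasurePreserving (act R k) ν ν := ⟨(continuous_mul' _).measurable, hν k k.2⟩
    have h2 : act R k ⁻¹' S = S := by
      obtain ⟨x, -, rfl⟩ := h.of_mem hS
      ext Λ
      obtain ⟨y, rfl⟩ := (e n).surjective Λ
      have h3 := Set.ext_iff.1 (Vale.Agent.P007.H11.ZO_preimage p x (h.cen.1 k.2)) y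
      simpa [act, ← e_tr] using h3
    have h3 := (h1.restrict_preimage hm).map_eq
    rw [h2] at h3
    rw [ProbabilityTheory.cond, Measure.map_smul, h3]

/-- An invariant measure on `Stab R` is determined by the masses of the orbits. -/
theorem Gen.ext (h : Gen R p) (hc : (orbs R).Countable) {ν ν' : Measure (X n)} [IsFiniteMeasure ν]
    [IsFiniteMeasure ν'] (h1 : ∀ k ∈ Cen R, ν.map (fun Λ => Λ.mul k) = ν)
    (h2 : ∀ k ∈ Cen R, ν'.map (fun Λ => Λ.mul k) = ν') (h3 : ν (Stab R)ᶜ = 0)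
    (h4 : ν' (Stab R)ᶜ = 0) (h5 : ∀ S ∈ orbs R, ν S = ν' S) : ν = ν' := by
  rw [← Measure.restrict_eq_self_of_ae_mem (μ := ν) (s := Stab R) h3,
    ← Measure.restrict_eq_self_of_ae_mem (μ := ν') (s := Stab R) h4, ← sUnion_orbs,
    Measure.restrict_sUnion_congr hc]
  intro S hS
  by_cases h0 : ν S = 0
  · rw [Measure.restrict_eq_zero.2 h0, Measure.restrict_eq_zero.2 ((h5 S hS).symm.trans h0)]
  have h6 := congrArg (fun κ : Measure (X n) => ν S • κ)
    (h.unique hS (h.cond h1 hS h0) (h.cond h2 hS (h5 S hS ▸ h0)))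
  simpa only [ProbabilityTheory.cond, ← h5 S hS, smul_smul,
    ENNReal.mul_inv_cancel h0 (measure_ne_top _ _), one_smul] using h6

end Vale.Agent.N007X
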