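import Vale.Agent.N007.Sub

/-! The tubes around the lattices with a multiplication which is not in the order. -/

open MeasureTheory Filter Topology NumberField

namespace Vale.Agent.N007X

open Vale.Agent.P007 Vale.Agent.P007.Fib Vale.Agent.P007M Vale.Agent.P007X

variable {n : ℕ}

/-- A neighbourhood of the lattices stable under `p` has small mass if `p` is not in the order
(the argument of `P007X.fin_datum`, for one `p`). -/
theorem tube (hn3 : 3 ≤ n) (D : ℕ → Datum n) (hdisc : Tendsto (fun i => (D i).disc) atTop atTop)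
    {p : Fin n → ℝ} (hpm : H11.IsMult p) {a : ℝ} (ha0 : 0 < a) :
    ∃ V : Set (X n), IsOpen V ∧ Yd p ⊆ V ∧
      ∀ᶠ i in atTop, p ∉ RE (D i) → (D i).packetMeas V ≤ ENNReal.ofReal a := by
  classical
  have hkey := S11.keyStmt n hn3
  have hB := sBlocks n
  have hT := sTube n
  have h3 := sFull3 (sComm n)
  have h2 := sFull2 (sLinG hn3 (sLin n))
  set e : ℝ := a / (3 * (n ^ 3 + 1)) with he
  have e0 : 0 < e := by positivity
  set H : ℝ := Real.log (24 ^ (n * n) / e) with hH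
  have eH : 24 ^ (n * n) * Real.exp (-H) = e := by
    rw [hH, Real.exp_neg, Real.exp_log (by positivity)]
    field_simp
  obtain ⟨ε₃, ε3, h3⟩ := h3 e H e0
  obtain ⟨ε₂, ε2, h2⟩ := h2 e H e0
  obtain ⟨Ω, hΩ, htight⟩ := S11.O3.tightness_fam hn3 hkey D hdisc
    (ENNReal.ofReal (min (min ε₃ ε₂) e)) (ENNReal.ofReal_pos.2 (lt_min (lt_min ε3 ε2) e0))
  obtain ⟨ρ₀, ρ0, hT⟩ := hT Ω hΩ p hpm
  obtain ⟨ρ₃, l₃, κ₃, a1, a2, a3, a4, h3⟩ := h3 Ω hΩ ρ₀ ρ0
  obtain ⟨ρ₂, l₂, κ₂, b1, b2, b3, b4, h2⟩ := h2 Ω hΩ ρ₀ ρ0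
  obtain ⟨V₃, V3, Y3, C₃, hT3⟩ := hT ρ₃ a1 a2 l₃ a3
  obtain ⟨V₂, V2, Y2, C₂, hT2⟩ := hT ρ₂ b1 b2 l₂ b3
  obtain ⟨S, D₀, hS, hB⟩ := hB (min κ₃ κ₂) (lt_min a4 b4)
  obtain ⟨D₂, h2⟩ := h2 C₂
  choose! D₃ h3 using fun c => h3 c C₃
  refine ⟨V₃ ∩ V₂, V3.inter V2, Set.subset_inter Y3 Y2, ?_⟩
  filter_upwards [htight, hdisc.eventually_ge_atTop D₀, hdisc.eventually_ge_atTop D₂,
    hdisc.eventually_ge_atTop (S.sup D₃), hdisc.eventually_ge_atTop 1] with i c1 c3 c4 c5 c6 c2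
  have := packetMeas_prob (D i)
  have d1 : (1 : ℝ) ≤ (D i).disc := by exact_mod_cast c6
  have c7 := ENNReal.toReal_le_of_le_ofReal (lt_min (lt_min ε3 ε2) e0).le c1
  have c8 : (D i).packetMeas.real Ωᶜ ≤ e := c7.trans (min_le_right _ _)
  have fin : ∀ V : Set (X n), V₃ ∩ V₂ ⊆ V → (D i).packetMeas.real V ≤
      (n ^ 3 + 1) * (e + (D i).packetMeas.real Ωᶜ + 24 ^ (n * n) * Real.exp (-H)) →
      (D i).packetMeas (V₃ ∩ V₂) ≤ ENNReal.ofReal a := fun V h1 h4 => by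
    refine (measure_mono h1).trans ?_
    rw [← ENNReal.ofReal_toReal (measure_ne_top (D i).packetMeas V)]
    refine ENNReal.ofReal_le_ofReal (h4.trans ?_)
    rw [eH]
    have h5 : (n ^ 3 + 1) * (3 * e) = a := by rw [he]; field_simp
    rw [← h5]
    exact mul_le_mul_of_nonneg_left (by linarith) (by positivity)
  obtain ⟨c, hc, b, hb, d2, d3, d4⟩ := hB (D i) c3
  obtain ⟨c0, c1'⟩ := hS c hc
  rcases d4 with d4 | ⟨s, τ, d4⟩
  · have d5 : ∀ j, |b j| ≤ ((D i).disc : ℝ) ^ (κ₃ * c) := fun j => (d2 j).trans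
      (Real.rpow_le_rpow_of_exponent_le d1 (mul_le_mul_of_nonneg_right (min_le_left _ _) c0.le))
    refine fin V₃ Set.inter_subset_left (hT3 (D i) c2 b hb _ (Real.one_le_rpow d1 (by positivity))
      d5 (fun j => ?_) _ H e (le_of_eq (by rw [Real.log_rpow (by linarith)]))
      (h3 c c0 c1' (D i) ((Finset.le_sup hc).trans c5)
        (c7.trans ((min_le_left _ _).trans (min_le_left _ _))) b hb d5 d3 d4))
    obtain ⟨k, k1, k2⟩ := Finset.exists_mem_ne (lt_of_lt_of_le (by norm_num) (d4 j)) j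
    exact ⟨k, k2, (Finset.mem_filter.1 k1).2⟩
  · have d5 : ∀ j, |b j| ≤ ((D i).disc : ℝ) ^ κ₂ := fun j => (d2 j).trans
      (Real.rpow_le_rpow_of_exponent_le d1
        ((mul_le_mul (min_le_right _ _) c1' c0.le b4.le).trans_eq (mul_one _)))
    exact fin V₂ Set.inter_subset_right (hT2 (D i) c2 b hb _ (Real.one_le_rpow d1 b4.le) d5
      (fun j => ⟨s j, d4.ne j, (d4.fib j _).2 (.inr rfl)⟩) _ H e
      (le_of_eq (by rw [Real.log_rpow (by linarith)]))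
      (h2 (D i) c4 (c7.trans ((min_le_left _ _).trans (min_le_right _ _))) b hb d5 s τ d4))

end Vale.Agent.N007X
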